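import Vale.Agent.P080.C1.Propagate.Velocity
import Vale.Agent.P080.C1.Limit

/-!
A7, steps 1 and 2: the upper bounds for the slopes, the continuity of the potential along
converging stencils, and the collar on which the potential is small unless a limit is saturated.
-/

namespace Vale.Agent.P080.C1

open Set Filter Topology
open scoped RealInnerProductSpace

set_option linter.unusedSectionVars false

variable {F : Type*} [NormedAddCommGroup F] [InnerProductSpace ℝ F] [FiniteDimensional ℝ F]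
variable {C : ℝ} {w : ℝ → F → ℝ}

/-- The backward slope is the forward slope of the mirror. -/
theorem Sm_eq_mir (w : ℝ → F → ℝ) (h t : ℝ) (y : F) : Sm w h t y = Sp (mir w) h (-t) y := by
  simp only [Sm, Sp, hlM, mir, neg_neg, sub_neg_eq_add, add_comm]

/-- Both slopes increase with the step. -/
theorem slopes_mono (hw : Prof C w) {h H : ℝ} (hh : 0 < h) (hH : h ≤ H) (t : ℝ) (y : F) :
    Sp w h t y ≤ Sp w H t y ∧ Sm w h t y ≤ Sm w H t y := by
  rw [Sm_eq_mir, Sm_eq_mir]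
  exact ⟨hw.mono t y hh (mem_Ioi.2 (hh.trans_le hH)) hH,
    hw.mono_mir (-t) y hh (mem_Ioi.2 (hh.trans_le hH)) hH⟩

/-- Upper bounds of the slopes of a normalised profile. -/
theorem upper_slopes (C : ℝ) : ∃ c : ℝ, 0 < c ∧ ∀ {w : ℝ → F → ℝ}, Prof C w →
    IsWin C w 0 0 1 0 0 → ∀ {R t h : ℝ} {y : F}, 1 ≤ R → |t| ≤ 4 * R → ‖y‖ ≤ 4 * R → 0 < h →
      h ≤ 2 → Sp w h t y ≤ c * (1 + Real.log R) ^ 2 ∧ Sm w h t y ≤ c * (1 + Real.log R) ^ 2 := by
  obtain ⟨c₁, hc₁, hb⟩ := hlP_bound (F := F) C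
  obtain ⟨c₂, hc₂, hwb⟩ := window_bound (F := F) C
  refine ⟨c₁ + 2 * c₂, by positivity, ?_⟩
  intro w hw hwin R t h y hR ht hy hh hh2
  obtain ⟨b, v, hv⟩ := hw.window t y 2 two_pos
  obtain ⟨hp, hm, -, -⟩ := hb hw two_pos hv
  have h2 := (hwb hw hwin hR ht hy two_pos hv).2
  have hm1 : 1 ≤ (1 + Real.log R) ^ 2 := one_le_pow₀ (by linarith [Real.log_nonneg hR])
  have hl : |Real.log 2| ≤ 1 := by
    rw [abs_of_nonneg (Real.log_nonneg (by norm_num))]
    linarith [Real.log_le_sub_one_of_pos (by norm_num : (0 : ℝ) < 2)]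
  have h3 : b + c₁ ≤ (c₁ + 2 * c₂) * (1 + Real.log R) ^ 2 := by
    have := mul_le_mul_of_nonneg_left hl hc₂.le
    have := mul_le_mul_of_nonneg_left hm1 hc₁.le
    have := mul_le_mul_of_nonneg_left hm1 hc₂.le
    linarith [(abs_le.1 h2).2]
  obtain ⟨k1, k2⟩ := slopes_mono hw hh hh2 t y
  exact ⟨by linarith [(abs_le.1 hp).2], by linarith [(abs_le.1 hm).2]⟩

/-- Growth of the slices and linear bounds of the slopes, uniformly over bounded centres. -/
theorem local_bound (hw : Prof C w) (T H : ℝ) : ∃ K : ℝ, 0 ≤ K ∧ ∀ (t : ℝ) (y z : F),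
    |t| ≤ T → ‖y‖ ≤ T → |w t (y + z)| ≤ K * ((1 + ‖z‖) * √(1 + ‖z‖)) ∧
      ∀ h, 0 < h → h ≤ H → Sp w h t (y + z) ≤ K * (1 + ‖z‖) ∧ Sm w h t (y + z) ≤ K * (1 + ‖z‖) := by
  obtain ⟨cg, hcg, hgrow⟩ := growth (F := F) C
  obtain ⟨cs, hcs, hsp⟩ := drift_space (F := F) C
  obtain ⟨cb, hcb, hb⟩ := hlP_bound (F := F) C
  set r := |H| + 1 with hr_def
  have hr : 0 < r := by positivity
  have hr1 : 1 ≤ r := by linarith [abs_nonneg H]
  obtain ⟨b, v, hwin⟩ := hw.window 0 0 r hr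
  set B := 1 + |T| * (2 + ‖v‖) with hB
  have hB1 : 1 ≤ B := by
    have : 0 ≤ |T| * (2 + ‖v‖) := by positivity
    linarith
  refine ⟨|w 0 0| + (|b| + ‖v‖ ^ 2) * |T| + ‖v‖ * B + cg * r * (B * √B) + |b| + 4 * cs * B + cb,
    by positivity, ?_⟩
  intro t y z ht hy
  set M := 1 + ‖z‖ with hM
  have hM1 : 1 ≤ M := by linarith [norm_nonneg z]
  have hsM : 1 ≤ √M := Real.one_le_sqrt.2 hM1
  set z' := y + z - t • v with hz'
  set q := (|t| + ‖z'‖) / r with hq
  have hT : |t| ≤ |T| := ht.trans (le_abs_self T)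
  have hzb : |t| + ‖z'‖ + 1 ≤ B * M := by
    have h1 : ‖z'‖ ≤ ‖y‖ + ‖z‖ + |t| * ‖v‖ := by
      refine (norm_sub_le _ _).trans (add_le_add (norm_add_le _ _) ?_)
      rw [norm_smul, Real.norm_eq_abs]
    have h2 : |T| * (2 + ‖v‖) ≤ |T| * (2 + ‖v‖) * M :=
      le_mul_of_one_le_right (by positivity) hM1
    have h3 := mul_le_mul_of_nonneg_right hT (norm_nonneg v)
    have h4 : ‖y‖ ≤ |T| := hy.trans (le_abs_self T)
    rw [hB, add_mul, one_mul]
    linarith
  have hq0 : 0 ≤ q := by positivity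
  have hqM : 1 + q ≤ B * M := by
    have : q ≤ |t| + ‖z'‖ := div_le_self (by positivity) hr1
    linarith
  have hBM : 0 ≤ B * M := by positivity
  constructor
  · have h := hgrow hw hr hwin t z'
    rw [zero_add, zero_add, hz', add_sub_cancel, ← hz', ← hq] at h
    have h1 : (1 + q) * √(1 + q) ≤ (B * √B) * (M * √M) := by
      rw [show B * √B * (M * √M) = B * M * (√B * √M) by ring,
        ← Real.sqrt_mul (by linarith)]
      exact mul_le_mul hqM (Real.sqrt_le_sqrt hqM) (Real.sqrt_nonneg _) hBM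
    have h2 : |⟪v, z'⟫| ≤ ‖v‖ * (B * M) :=
      (abs_real_inner_le_norm _ _).trans
        (mul_le_mul_of_nonneg_left (by linarith [abs_nonneg t]) (norm_nonneg v))
    have h3 : |(b + ‖v‖ ^ 2 / 2) * t| ≤ (|b| + ‖v‖ ^ 2) * |T| := by
      rw [abs_mul]
      refine mul_le_mul ?_ hT (abs_nonneg _) (by positivity)
      refine (abs_add_le _ _).trans ?_
      rw [abs_of_nonneg (by positivity : (0 : ℝ) ≤ ‖v‖ ^ 2 / 2)]
      linarith [sq_nonneg ‖v‖]
    have hMM : 1 ≤ M * √M := one_le_mul_of_one_le_of_one_le hM1 hsM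
    have hMM' : M ≤ M * √M := le_mul_of_one_le_right (by linarith) hsM
    have e : B * M ≤ B * (M * √M) := mul_le_mul_of_nonneg_left hMM' (by linarith)
    have e1 := mul_le_mul_of_nonneg_left h1 (mul_nonneg hcg.le hr.le)
    have e2 := mul_le_mul_of_nonneg_left e (norm_nonneg v)
    have e3 := le_mul_of_one_le_right
      (by positivity : 0 ≤ |w 0 0| + (|b| + ‖v‖ ^ 2) * |T|) hMM
    have e4 : 0 ≤ (|b| + 4 * cs * B + cb) * (M * √M) := by positivity
    have h0 := abs_le.1 h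
    have h2' := abs_le.1 h2
    have h3' := abs_le.1 h3
    have := le_abs_self (w 0 0)
    have := neg_abs_le (w 0 0)
    rw [abs_le]
    constructor <;> linarith
  · intro h hh hH
    obtain ⟨b', v', hwin'⟩ := hw.window t (y + z) r hr
    obtain ⟨k1, k2, -, -⟩ := hb hw hr hwin'
    have h1 := (hsp hw hr hwin t z' (b' := b') (v' := v') (by
      rw [zero_add, zero_add, hz', add_sub_cancel]; exact hwin') q rfl).2
    have h2 : (1 + Real.log (1 + q)) ^ 2 ≤ 4 * (1 + q) := by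
      have e : Real.log (1 + q) = 2 * Real.log √(1 + q) := by
        rw [Real.log_sqrt (by linarith)]; ring
      have e1 := Real.log_le_sub_one_of_pos (Real.sqrt_pos.2 (show 0 < 1 + q by linarith))
      have e2 : 0 ≤ Real.log (1 + q) := Real.log_nonneg (by linarith)
      calc (1 + Real.log (1 + q)) ^ 2 ≤ (2 * √(1 + q)) ^ 2 :=
            pow_le_pow_left₀ (by linarith) (by linarith) 2
        _ = 4 * (1 + q) := by rw [mul_pow, Real.sq_sqrt (by linarith)]; ring
    have h3 : b' ≤ b + 4 * cs * (B * M) := by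
      have := mul_le_mul_of_nonneg_left (h2.trans (by linarith : 4 * (1 + q) ≤ 4 * (B * M))) hcs.le
      linarith [(abs_le.1 h1).2]
    have h4 : b' + cb ≤ (|b| + 4 * cs * B + cb) * M := by
      have := le_mul_of_one_le_right (abs_nonneg b) hM1
      have := le_mul_of_one_le_right hcb.le hM1
      linarith [le_abs_self b]
    have h5 : 0 ≤ (|w 0 0| + (|b| + ‖v‖ ^ 2) * |T| + ‖v‖ * B + cg * r * (B * √B)) * M := by
      positivity
    obtain ⟨m1, m2⟩ := slopes_mono hw hh (by linarith [le_abs_self H] : h ≤ r) t (y + z)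
    exact ⟨by linarith [(abs_le.1 k1).2], by linarith [(abs_le.1 k2).2]⟩

/-- The forward value is continuous. -/
theorem hlP_continuous (hw : Prof C w) {s : ℝ} (hs : 0 < s) :
    Continuous fun X : ℝ × F => hlP w s X.1 X.2 := by
  refine continuous_iff_seqContinuous.2 fun X X₀ hX => ?_
  exact hlP_tendsto (W := fun _ => w) (fun _ => hw)
    (fun u hu X => ⟨univ, univ_mem, Eventually.of_forall fun _ _ _ => refl_mem_uniformity hu⟩)
    hs ((continuous_fst.tendsto _).comp hX) ((continuous_snd.tendsto _).comp hX)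

/-- The backward value is continuous. -/
theorem hlM_continuous (hw : Prof C w) {s : ℝ} (hs : 0 < s) :
    Continuous fun X : ℝ × F => hlM w s X.1 X.2 :=
  ((hlP_continuous hw.mirror hs).comp (continuous_fst.neg.prodMk continuous_snd)).neg

/-- The slices through converging centres converge locally uniformly. -/
theorem slice_tendsto {G : ℝ × F → ℝ} (hG : Continuous G) {tn : ℕ → ℝ} {yn : ℕ → F} {t : ℝ}
    {y : F} (ht : Tendsto tn atTop (𝓝 t)) (hy : Tendsto yn atTop (𝓝 y)) :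
    TendstoLocallyUniformly (fun n z => G (tn n, yn n + z)) (fun z => G (t, y + z)) atTop := by
  let H : C((ℝ × F) × F, ℝ) := ⟨fun p => G (p.1.1, p.1.2 + p.2), by fun_prop⟩
  exact ContinuousMap.tendsto_iff_tendstoLocallyUniformly.1
    ((H.curry.continuous.tendsto (t, y)).comp (ht.prodMk_nhds hy))

/-- The forward value has the growth of the slices. -/
theorem hlP_growth (hw : Prof C w) {s T K τ : ℝ} {x : F} (hs : 0 < s) (hK0 : 0 ≤ K)
    (hK : ∀ (t : ℝ) (y z : F), |t| ≤ T → ‖y‖ ≤ T → |w t (y + z)| ≤ K * ((1 + ‖z‖) * √(1 + ‖z‖)) ∧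
      ∀ h, 0 < h → h ≤ s → Sp w h t (y + z) ≤ K * (1 + ‖z‖) ∧ Sm w h t (y + z) ≤ K * (1 + ‖z‖))
    (hτ : |τ| + s ≤ T) (hx : ‖x‖ ≤ T) (z : F) :
    |hlP w s τ (x + z)| ≤ K * (1 + s) * ((1 + ‖z‖) * √(1 + ‖z‖)) := by
  have ha : |τ + s| ≤ T := (abs_add_le _ _).trans (by rw [abs_of_pos hs]; exact hτ)
  obtain ⟨g1, g2⟩ := hK τ x z (by linarith) hx
  have g3 := (hK (τ + s) x z ha hx).1
  have g4 := (g2 s hs le_rfl).1
  have e1 : hlP w s τ (x + z) = w τ (x + z) + s * Sp w s τ (x + z) := by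
    unfold Sp; field_simp; ring
  have g5 := le_hlP hw hs τ (x + z) 0
  rw [add_zero, norm_zero, zero_pow two_ne_zero, zero_div, sub_zero] at g5
  have hM : 1 + ‖z‖ ≤ (1 + ‖z‖) * √(1 + ‖z‖) := le_mul_of_one_le_right (by positivity)
    (Real.one_le_sqrt.2 (by linarith [norm_nonneg z]))
  have g6 := mul_le_mul_of_nonneg_left (g4.trans (mul_le_mul_of_nonneg_left hM hK0)) hs.le
  have g7 : 0 ≤ s * (K * ((1 + ‖z‖) * √(1 + ‖z‖))) := by positivity
  rw [abs_le]
  constructor <;> linarith [(abs_le.1 g1).2, (abs_le.1 g3).1]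

/-- The potential passes to a limit stencil. -/
theorem pot_subseq (hw : Prof C w) {s : ℝ} (hs : 0 < s) {m : ℕ} {tn : ℕ → ℝ} {yn : ℕ → F}
    {t : ℝ} {y : F} (ht : Tendsto tn atTop (𝓝 t)) (hy : Tendsto yn atTop (𝓝 y))
    {L : ℕ → Fin m → ℝ} {η : ℕ → Fin m → F} (hst : ∀ n, IsStencil (L n) (η n)) {ρ : ℝ}
    (hρ : ∀ n, spread (L n) (η n) ≤ ρ) :
    ∃ (φ : ℕ → ℕ) (l : Fin m → ℝ) (e : Fin m → F), StrictMono φ ∧ IsStencil l e ∧
      (∀ δ : ℝ, 0 < δ → ∀ᶠ n in atTop, spread l e ≤ spread (L (φ n)) (η (φ n)) + δ) ∧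
      Tendsto (fun n => pot w s (tn (φ n)) (yn (φ n)) (L (φ n)) (η (φ n))) atTop
        (𝓝 (pot w s t y l e)) := by
  obtain ⟨T₁, hT₁⟩ := ht.abs.bddAbove_range
  obtain ⟨T₂, hT₂⟩ := hy.norm.bddAbove_range
  set T := max T₁ T₂ + s with hT
  obtain ⟨K, hK0, hK⟩ := local_bound hw T s
  have hT1 : ∀ n, |tn n| + s ≤ T := fun n => by
    linarith [hT₁ ⟨n, rfl⟩, le_max_left T₁ T₂]
  have hT2 : ∀ n, ‖yn n‖ ≤ T := fun n => by linarith [hT₂ ⟨n, rfl⟩, le_max_right T₁ T₂]
  obtain ⟨φ, l, e, hφ, hle, hsp, hconv⟩ := stencil_compact (K := K * (1 + s)) hst hρ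
  refine ⟨φ, l, e, hφ, hle, hsp, ?_⟩
  have hφt := hφ.tendsto_atTop
  have hP := hlP_continuous hw hs
  have ht' : Tendsto (fun n => tn (φ n)) atTop (𝓝 t) := ht.comp hφt
  have hy' : Tendsto (fun n => yn (φ n)) atTop (𝓝 y) := hy.comp hφt
  have hlu := slice_tendsto (G := fun X : ℝ × F => hlP w s X.1 X.2) hP ht' hy'
  dsimp only at hlu
  have hcy : Continuous fun z => hlP w s t (y + z) :=
    hP.comp (g := fun X : ℝ × F => hlP w s X.1 X.2) (f := fun z => (t, y + z)) (by fun_prop)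
  have h1 := hconv _ _ hlu hcy
    (fun n z => hlP_growth hw hs hK0 hK (hT1 (φ n)) (hT2 (φ n)) z)
  have h2 := (((hlM_continuous hw (by linarith : 0 < 2 * s)).tendsto (t, y)).comp
    (ht'.prodMk_nhds hy'))
  exact h1.sub h2

/-- The potential is at most `G` times the spread up to a bounded multiple of the step. -/
theorem pot_near_bottom (hw : Prof C w) {G : ℝ} (hG : 0 ≤ G) (hgap : GapLe G w) (R : ℝ) :
    ∃ M : ℝ, ∀ {s : ℝ}, 0 < s → s ≤ 1 → ∀ {m : ℕ} {t : ℝ} {y : F} {l : Fin m → ℝ}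
      {η : Fin m → F}, IsStencil l η → t ^ 2 + ‖y‖ ^ 2 ≤ R ^ 2 →
        pot w s t y l η - G * spread l η ≤ M * s := by
  obtain ⟨K, hK0, hK⟩ := local_bound hw |R| 2
  refine ⟨3 * K + G ^ 2 / 2, fun {s} hs hs1 m t y l η hst hR => ?_⟩
  have ht : |t| ≤ |R| := sq_le_sq.1 (by linarith [sq_nonneg ‖y‖])
  have hy : ‖y‖ ≤ |R| := by
    rw [← abs_of_nonneg (norm_nonneg y)]
    exact sq_le_sq.1 (by linarith [sq_nonneg t])
  have h := (hK t y 0 ht hy).2
  simp only [add_zero, norm_zero, mul_one] at h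
  have h1 := (h s hs (by linarith)).1
  have h2 := (h (2 * s) (by linarith) (by linarith)).2
  refine (pot_le hw hG hgap hst hs).trans ?_
  exact (mul_le_mul_of_nonneg_left
    (by linarith : _ ≤ 3 * K + G ^ 2 / 2) hs.le).trans_eq (mul_comm _ _)

/-- The negated collar: without a saturated stencil of bounded slopes the potential is small. -/
theorem collar (hw : Prof C w) {G : ℝ} (hG : 0 < G) (hgap : GapLe G w) {R lo hi K : ℝ}
    (_hlo : 0 < lo)
    (hno : ∀ (t : ℝ) (y : F) (l : Fin (Module.finrank ℝ F + 2) → ℝ)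
      (η : Fin (Module.finrank ℝ F + 2) → F), Saturated G w t y l η → lo ≤ spread l η →
        spread l η ≤ hi → t ^ 2 + ‖y‖ ^ 2 ≤ R ^ 2 →
        ¬ ∀ h, 0 < h → -(K + G ^ 2 / 2) ≤ Sp w h t y + 2 * Sm w (2 * h) t y) :
    ∃ s₀ : ℝ, 0 < s₀ ∧ ∀ {s : ℝ}, 0 < s → s ≤ s₀ → ∀ {m : ℕ} {t : ℝ} {y : F} {l : Fin m → ℝ}
      {η : Fin m → F}, IsStencil l η → lo ≤ spread l η → spread l η ≤ hi →
        t ^ 2 + ‖y‖ ^ 2 ≤ R ^ 2 → pot w s t y l η - G * spread l η ≤ -(K * s) := by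
  by_contra hcon
  push Not at hcon
  have hsel : ∀ n : ℕ, ∃ (s t : ℝ) (y : F) (l : Fin (Module.finrank ℝ F + 2) → ℝ)
      (η : Fin (Module.finrank ℝ F + 2) → F), 0 < s ∧ s ≤ 1 / ((n : ℝ) + 1) ∧ IsStencil l η ∧
        lo ≤ spread l η ∧ spread l η ≤ hi ∧ t ^ 2 + ‖y‖ ^ 2 ≤ R ^ 2 ∧
        -(K * s) < pot w s t y l η - G * spread l η := by
    intro n
    obtain ⟨s, hs, hsn, m, t, y, l, η, hst, h1, h2, h3, h4⟩ :=
      hcon (1 / ((n : ℝ) + 1)) (by positivity)
    obtain ⟨l', η', hst', hsp, hsum⟩ := caratheodory hst fun x => hlP w s t (y + x)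
    refine ⟨s, t, y, l', η', hs, hsn, hst', hsp ▸ h1, hsp ▸ h2, h3, ?_⟩
    unfold pot at h4 ⊢
    rw [hsp]
    linarith
  choose s t y L η hs hsn hst h1 h2 h3 h4 using hsel
  have hbd : ∀ n, |t n| ≤ |R| ∧ ‖y n‖ ≤ |R| := fun n => by
    refine ⟨sq_le_sq.1 (by linarith [h3 n, sq_nonneg ‖y n‖]), ?_⟩
    rw [← abs_of_nonneg (norm_nonneg (y n))]
    exact sq_le_sq.1 (by linarith [h3 n, sq_nonneg (t n)])
  obtain ⟨X, -, φ, hφ, hX⟩ := (isCompact_closedBall (0 : ℝ × F) |R|).tendsto_subseq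
    (x := fun n => (t n, y n)) fun n => by
      rw [mem_closedBall_zero_iff, Prod.norm_def]
      exact max_le (hbd n).1 (hbd n).2
  obtain ⟨T, Y⟩ := X
  obtain ⟨Kb, hKb0, hKb⟩ := local_bound hw |R| 2
  obtain ⟨ψ, l, e, hψ, hle, hsp, hconv⟩ :=
    stencil_compact (K := Kb) (L := fun n => L (φ n)) (η := fun n => η (φ n))
      (fun n => hst (φ n)) (fun n => h2 (φ n))
  set ι := fun n => φ (ψ n) with hι
  have hψt := hψ.tendsto_atTop
  have hιt : Tendsto ι atTop atTop := hφ.tendsto_atTop.comp hψt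
  have hT : Tendsto (fun n => t (ι n)) atTop (𝓝 T) :=
    ((continuous_fst.tendsto _).comp hX).comp hψt
  have hY : Tendsto (fun n => y (ι n)) atTop (𝓝 Y) :=
    ((continuous_snd.tendsto _).comp hX).comp hψt
  have hS : Tendsto (fun n => s (ι n)) atTop (𝓝 0) :=
    squeeze_zero (fun n => (hs _).le) (fun n => hsn _)
      ((tendsto_one_div_add_atTop_nhds_zero_nat).comp hιt)
  have hwc : Continuous fun X : ℝ × F => w X.1 X.2 := hw.continuous
  have hgaps : Tendsto (fun n => gap w (t (ι n)) (y (ι n)) (L (ι n)) (η (ι n))) atTop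
      (𝓝 (gap w T Y l e)) := by
    refine (hconv (fun n z => w (t (ι n)) (y (ι n) + z)) (fun z => w T (Y + z))
      (slice_tendsto hwc hT hY) (hwc.comp (continuous_const.prodMk
        (continuous_const.add continuous_id))) fun n z =>
      (hKb _ _ z (hbd _).1 (hbd _).2).1).sub ?_
    exact (hwc.tendsto (T, Y)).comp (hT.prodMk_nhds hY)
  set E := Kb * (2 + hi ^ 2) + 2 * Kb with hE
  have hlow : ∀ n, G * spread (L n) (η n) - (K + E) * s n ≤ gap w (t n) (y n) (L n) (η n) := by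
    intro n
    have hs2 : s n ≤ 1 := (hsn n).trans (by
      rw [div_le_one (by positivity)]; linarith [(n.cast_nonneg : (0 : ℝ) ≤ n)])
    have e1 : ∀ i, L n i * hlP w (s n) (t n) (y n + η n i) ≤
        L n i * w (t n) (y n + η n i) + s n * Kb * (2 * L n i + L n i * ‖η n i‖ ^ 2) := by
      intro i
      have k := ((hKb (t n) (y n) (η n i) (hbd n).1 (hbd n).2).2 (s n) (hs n) (by linarith)).1
      unfold Sp at k
      rw [div_le_iff₀ (hs n)] at k
      have k2 : 1 + ‖η n i‖ ≤ 2 + ‖η n i‖ ^ 2 := by nlinarith [sq_nonneg (‖η n i‖ - 1)]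
      have k3 := mul_le_mul_of_nonneg_left
        (mul_le_mul_of_nonneg_left k2 (mul_nonneg (hs n).le hKb0)) ((hst n).1 i)
      have k4 := mul_le_mul_of_nonneg_left k ((hst n).1 i)
      linarith
    have e2 := Finset.sum_le_sum fun i (_ : i ∈ Finset.univ) => e1 i
    rw [Finset.sum_add_distrib, ← Finset.mul_sum, Finset.sum_add_distrib, ← Finset.mul_sum,
      (hst n).2.1, ← spread_sq (hst n).1] at e2
    have e3 : spread (L n) (η n) ^ 2 ≤ hi ^ 2 :=
      pow_le_pow_left₀ (Real.sqrt_nonneg _) (h2 n) 2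
    have e4 := mul_le_mul_of_nonneg_left e3 (mul_nonneg (hs n).le hKb0)
    have k5 := ((hKb (t n) (y n) 0 (hbd n).1 (hbd n).2).2 (2 * s n) (by linarith [hs n])
      (by linarith)).2
    simp only [add_zero, norm_zero, mul_one] at k5
    unfold Sm at k5
    rw [div_le_iff₀ (by linarith [hs n])] at k5
    have := h4 n
    unfold pot at this
    unfold gap
    linarith
  have hE0 : Tendsto (fun n => (K + E) * s (ι n)) atTop (𝓝 0) := by
    simpa using hS.const_mul (K + E)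
  have hgl : ∀ c, (∀ᶠ n in atTop, c ≤ spread (L (ι n)) (η (ι n))) →
      G * c ≤ gap w T Y l e := fun c hc => by
    have hlim : Tendsto (fun n => gap w (t (ι n)) (y (ι n)) (L (ι n)) (η (ι n)) + (K + E) * s (ι n))
        atTop (𝓝 (gap w T Y l e)) := by simpa using hgaps.add hE0
    refine ge_of_tendsto hlim (hc.mono fun n hn => ?_)
    linarith [hlow (ι n), mul_le_mul_of_nonneg_left hn hG.le]
  have hupper := hgap _ T Y l e hle
  have hge : G * spread l e ≤ gap w T Y l e := by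
    refine le_of_forall_pos_le_add fun δ hδ => ?_
    have := hgl (spread l e - δ / G) ((hsp (δ / G) (by positivity)).mono fun n hn => by
      simp only [hι]; linarith)
    rw [mul_sub, mul_div_cancel₀ _ hG.ne'] at this
    linarith
  have hlo' : lo ≤ spread l e :=
    le_of_mul_le_mul_left ((hgl lo (.of_forall fun n => h1 _)).trans hupper) hG
  have hhi' : spread l e ≤ hi := le_of_forall_pos_le_add fun δ hδ => by
    obtain ⟨n, hn⟩ := (hsp δ hδ).exists
    linarith [h2 (φ (ψ n))]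
  refine hno T Y l e ⟨hle, le_antisymm hupper hge⟩ hlo' hhi'
    (le_of_tendsto ((hT.pow 2).add (hY.norm.pow 2)) (.of_forall fun n => h3 (ι n))) fun h hh => ?_
  have hcont : Continuous fun X : ℝ × F => Sp w h X.1 X.2 + 2 * Sm w (2 * h) X.1 X.2 :=
    (((hlP_continuous hw hh).sub hwc).div_const h).add
      (continuous_const.mul
        ((hwc.sub (hlM_continuous hw (by linarith : 0 < 2 * h))).div_const (2 * h)))
  refine ge_of_tendsto ((hcont.tendsto (T, Y)).comp (hT.prodMk_nhds hY))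
    ((hS.eventually (ge_mem_nhds hh)).mono fun n hn => ?_)
  have k1 := pot_le hw hG.le hgap (hst (ι n)) (hs (ι n)) (t := t (ι n)) (y := y (ι n))
  have k2 := h4 (ι n)
  obtain ⟨m1, -⟩ := slopes_mono hw (hs (ι n)) hn (t (ι n)) (y (ι n))
  obtain ⟨-, m2⟩ := slopes_mono hw (by linarith [hs (ι n)] : 0 < 2 * s (ι n))
    (by linarith : 2 * s (ι n) ≤ 2 * h) (t (ι n)) (y (ι n))
  have k3 : s (ι n) * (-(K + G ^ 2 / 2)) <
      s (ι n) * (Sp w (s (ι n)) (t (ι n)) (y (ι n)) +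
        2 * Sm w (2 * s (ι n)) (t (ι n)) (y (ι n))) := by linarith
  have k4 := lt_of_mul_lt_mul_left k3 (hs (ι n)).le
  simp only [Function.comp_apply]
  linarith

end Vale.Agent.P080.C1
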