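import Vale.Agent.P080.C1.Propagate.Velocity
import Vale.Agent.P080.C1.Propagate.Collar
import Vale.Agent.P080.C1.Barrier.Real
import Vale.Agent.P080.C1.Key

/-!
A7 step 3: the potential minus the barrier has no positive maximum inside the zone.
-/

namespace Vale.Agent.P080.C1

open Set Filter Topology
open scoped RealInnerProductSpace

set_option linter.unusedSectionVars false

variable {F : Type*} [NormedAddCommGroup F] [InnerProductSpace ℝ F] [FiniteDimensional ℝ F]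
variable {C : ℝ} {w : ℝ → F → ℝ}

/-- The potential minus the barrier. -/
noncomputable def excess (w : ℝ → F → ℝ) (G C₁ β N R s t : ℝ) (y : F) {ι : Type*} [Fintype ι]
    (l : ι → ℝ) (η : ι → F) : ℝ :=
  pot w s t y l η - (G * spread l η + s * Barrier.prof C₁ β (spread l η))
    - s * N / R ^ 2 * (t ^ 2 + ‖y‖ ^ 2)

/-- A step times its logarithm is small. -/
theorem mul_abs_log_le {s : ℝ} (hs : 0 < s) (hs1 : s ≤ 1) : s * |Real.log s| ≤ 2 * Real.sqrt s := by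
  have h1 := Real.abs_log_mul_self_lt (Real.sqrt s) (Real.sqrt_pos.2 hs) (Real.sqrt_le_one.2 hs1)
  rw [abs_mul, abs_of_nonneg (Real.sqrt_nonneg s), Real.log_sqrt hs.le, abs_div, abs_two] at h1
  have h2 := mul_le_mul_of_nonneg_left h1.le (Real.sqrt_nonneg s)
  rw [mul_one, mul_comm (|Real.log s| / 2), ← mul_assoc, Real.mul_self_sqrt hs.le] at h2
  linarith

/-- The spread of the backward child. -/
theorem spread_shrink {m : ℕ} {l : Fin m → ℝ} {η : Fin m → F} (hl : ∀ i, 0 ≤ l i) {q : ℝ}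
    (hρ : 0 < spread l η) (hq : q ≤ spread l η) :
    spread l (fun i => η i + -((q / spread l η) • η i)) = spread l η - q ∧
      ∑ i, l i * ‖-((q / spread l η) • η i)‖ ^ 2 = q ^ 2 := by
  have key : ∀ a : ℝ, ∑ i, l i * ‖a • η i‖ ^ 2 = a ^ 2 * spread l η ^ 2 := fun a => by
    rw [spread_sq hl, Finset.mul_sum]
    refine Finset.sum_congr rfl fun i _ => ?_
    rw [norm_smul, mul_pow, Real.norm_eq_abs, sq_abs]
    ring
  constructor
  · have h1 : ∀ i, η i + -((q / spread l η) • η i) = (1 - q / spread l η) • η i := fun i => by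
      module
    simp only [h1]
    rw [← Real.sqrt_sq (sub_nonneg.2 hq)]
    refine congrArg Real.sqrt ?_
    rw [key]
    field_simp
  · simp only [norm_neg]
    rw [key]
    field_simp

/-- The forward child moves the spread by at most the spread of the offsets. -/
theorem spread_move {m : ℕ} {l : Fin m → ℝ} (hl : ∀ i, 0 ≤ l i) (η e : Fin m → F) :
    |spread l (fun i => η i + e i) - spread l η| ≤ spread l e := by
  have h1 := spread_add_le hl η e
  have h2 := spread_add_le hl (fun i => η i + e i) (fun i => -e i)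
  have h3 : spread l (fun i => -e i) = spread l e := by simp [spread]
  simp only [add_neg_cancel_right, h3] at h2
  rw [abs_le]
  constructor <;> linarith

/-- A small step keeps the slope of the barrier positive. -/
theorem slope_small {G s β ρ : ℝ} (hG : 0 < G) (hs : 0 < s) (hsβ : s ≤ G / (2 * (|β| + 4)))
    (hρ3 : ρ ≤ 3) : |s * (β - 2 * Real.sqrt ρ)| ≤ G / 2 := by
  have hsq : Real.sqrt ρ ≤ 2 := by
    rw [Real.sqrt_le_iff]
    exact ⟨by norm_num, by linarith⟩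
  rw [abs_mul, abs_of_pos hs]
  have h1 : |β - 2 * Real.sqrt ρ| ≤ |β| + 4 := by
    refine (abs_sub _ _).trans ?_
    rw [abs_of_nonneg (by positivity : 0 ≤ 2 * Real.sqrt ρ)]
    linarith
  calc s * |β - 2 * Real.sqrt ρ| ≤ G / (2 * (|β| + 4)) * (|β| + 4) :=
        mul_le_mul hsβ h1 (abs_nonneg _) (by positivity)
    _ = G / 2 := by field_simp

/-- The offsets of the forward child. -/
theorem contact_offsets {m : ℕ} {l : Fin m → ℝ} {a : Fin m → F} (hl0 : ∀ i, 0 ≤ l i)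
    (hl1 : ∑ i, l i = 1) {M : ℝ} (hM : 0 ≤ M) (h : ∑ i, l i * ‖a i‖ ^ 2 ≤ M ^ 2) :
    ‖∑ i, l i • a i‖ ≤ M ∧ spread l (fun i => a i - ∑ j, l j • a j) ≤ M := by
  have hsum := sum_sq_mean hl1 a
  constructor
  · refine le_of_sq_le_sq ?_ hM
    have : 0 ≤ ∑ i, l i * ‖a i - ∑ j, l j • a j‖ ^ 2 :=
      Finset.sum_nonneg fun i _ => mul_nonneg (hl0 i) (sq_nonneg _)
    linarith
  · refine le_of_sq_le_sq ?_ hM
    rw [spread_sq hl0, hsum]
    linarith [sq_nonneg ‖∑ j, l j • a j‖]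

/-- The backward offset is small for a small step. -/
theorem back_small {cb s d L : ℝ} {b : F} (hcb : 0 < cb) (hs : 0 < s) (hs1 : s ≤ 1) (hL : 0 ≤ L)
    (hd : 0 < d) (hsb : s ≤ (d / (cb * (3 + L))) ^ 2)
    (hb : ‖b‖ ≤ cb * s * (1 + L + |Real.log s|)) : ‖b‖ ≤ d := by
  refine hb.trans ?_
  have hq : Real.sqrt s ≤ d / (cb * (3 + L)) := by
    rw [Real.sqrt_le_left (by positivity)]
    exact hsb
  have hs2 : Real.sqrt s ≤ 1 := Real.sqrt_le_one.2 hs1
  have hlog := mul_abs_log_le hs hs1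
  have h3 : s ≤ Real.sqrt s := by nlinarith [Real.mul_self_sqrt hs.le, Real.sqrt_nonneg s]
  calc cb * s * (1 + L + |Real.log s|) = cb * (s * (1 + L) + s * |Real.log s|) := by ring
    _ ≤ cb * ((3 + L) * Real.sqrt s) := by
        refine mul_le_mul_of_nonneg_left ?_ hcb.le
        linarith [mul_le_mul_of_nonneg_right h3 (by linarith : 0 ≤ 1 + L)]
    _ ≤ cb * ((3 + L) * (d / (cb * (3 + L)))) := by gcongr
    _ = d := by field_simp

/-- A number in the unit interval dominates its square. -/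
theorem sq_le {s : ℝ} (hs : 0 ≤ s) (hs1 : s ≤ 1) : s ^ 2 ≤ s := by nlinarith

/-- A short move from the ball of radius `R` stays in the doubled ball. -/
theorem in_zone {R t τ : ℝ} {y z : F} (_hR : 0 ≤ R) (ht : |t| ≤ R) (hy : ‖y‖ ≤ R)
    (hτ : |τ| ≤ R / 8) (hz : ‖z‖ ≤ R / 8) : (t + τ) ^ 2 + ‖y + z‖ ^ 2 ≤ (2 * R) ^ 2 := by
  have h1 : |t + τ| ≤ R + R / 8 := (abs_add_le t τ).trans (by linarith)
  have h2 : ‖y + z‖ ≤ R + R / 8 := (norm_add_le y z).trans (by linarith)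
  have h4 := pow_le_pow_left₀ (norm_nonneg _) h2 2
  have h5 := pow_le_pow_left₀ (abs_nonneg _) h1 2
  rw [sq_abs] at h5
  nlinarith

/-- The final contradiction at a contact. -/
theorem contact_false {s ρ G p X R : ℝ} (hs : 0 < s) (hρ : 0 < ρ) (hG : 0 ≤ G) (hp : G / 2 ≤ p)
    (hrad : X / R ^ 2 < G ^ 2 / (16 * Real.sqrt ρ))
    (h : s ^ 3 * p ^ 2 / (2 * Real.sqrt ρ) ≤ s ^ 3 * X / R ^ 2) : False := by
  have hsq : 0 < Real.sqrt ρ := Real.sqrt_pos.2 hρ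
  have h2 : G ^ 2 / (16 * Real.sqrt ρ) ≤ p ^ 2 / (2 * Real.sqrt ρ) := by
    rw [div_le_div_iff₀ (by positivity) (by positivity)]
    nlinarith [mul_le_mul hp hp (by linarith) (by linarith)]
  have h3 := mul_lt_mul_of_pos_left (hrad.trans_le h2) (by positivity : 0 < s ^ 3)
  rw [← mul_div_assoc, ← mul_div_assoc] at h3
  linarith

/-- No stencil of the zone exceeds the given one. -/
def IsMaxIn (w : ℝ → F → ℝ) (G C₁ β N R lo hi s t : ℝ) (y : F)
    (l : Fin (Module.finrank ℝ F + 2) → ℝ) (η : Fin (Module.finrank ℝ F + 2) → F) : Prop :=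
  ∀ (t' : ℝ) (y' : F) (l' : Fin (Module.finrank ℝ F + 2) → ℝ)
    (η' : Fin (Module.finrank ℝ F + 2) → F), IsStencil l' η' → lo ≤ spread l' η' →
    spread l' η' ≤ hi → t' ^ 2 + ‖y'‖ ^ 2 ≤ (2 * R) ^ 2 →
    excess w G C₁ β N R s t' y' l' η' ≤ excess w G C₁ β N R s t y l η

variable {G C₁ β N R lo hi s t ρ p δ : ℝ} {y : F}
  {l : Fin (Module.finrank ℝ F + 2) → ℝ} {η : Fin (Module.finrank ℝ F + 2) → F}

/-- At a maximum the slices of the forward value are touched above at the atoms. -/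
theorem contact_touch (hs : 0 < s) (hst : IsStencil l η) (hρ : 0 < spread l η) (hδ : 0 < δ)
    (hlo : lo ≤ spread l η) (hhi : spread l η + δ ≤ hi) (hX : t ^ 2 + ‖y‖ ^ 2 ≤ (2 * R) ^ 2)
    (hmax : IsMaxIn w G C₁ β N R lo hi s t y l η) (hp : p = G + s * (β - 2 * Real.sqrt (spread l η)))
    (hp0 : 0 ≤ p) (hphi : p ≤ 2 * G) :
    ∀ i, 0 < l i → ∃ q : F, ∀ z, hlP w s t (y + η i + z) ≤
      hlP w s t (y + η i) + ⟪q, z⟫ + G / spread l η * ‖z‖ ^ 2 := by
  have hψ : ∀ r, spread l η ≤ r → G * r + s * Barrier.prof C₁ β r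
      ≤ G * spread l η + s * Barrier.prof C₁ β (spread l η) + p * (r - spread l η) := fun r hr => by
    have := mul_le_mul_of_nonneg_left (Barrier.prof_tangent C₁ β hρ (by linarith : 0 ≤ r)).1 hs.le
    rw [hp]
    linarith
  intro i hi'
  obtain ⟨q, hq⟩ := contact_touched (f := fun z => hlP w s t (y + z))
    (ψ := fun r => G * r + s * Barrier.prof C₁ β r) hst hρ hp0 hψ
    ⟨δ, hδ, fun l' η' h' h1 h2 => by
      have := hmax t y l' η' h' (by linarith) (by linarith) hX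
      simp only [excess, pot] at this
      linarith⟩ hi'
  refine ⟨q, fun z => ?_⟩
  have h1 := hq z
  simp only [← add_assoc] at h1
  have h2 : p / 2 / spread l η ≤ G / spread l η := by
    rw [div_div, div_le_div_iff₀ (by positivity) hρ]
    calc p * spread l η ≤ 2 * G * spread l η := mul_le_mul_of_nonneg_right hphi hρ.le
      _ = G * (2 * spread l η) := by ring
  have := mul_le_mul_of_nonneg_right h2 (sq_nonneg ‖z‖)
  linarith

/-- The two children of a maximum contradict the gain of the barrier. -/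
theorem contact_kill {V : ℝ} {a : Fin (Module.finrank ℝ F + 2) → F} {b : F} (hs : 0 < s)
    (hR : 1 ≤ R) (hN : 0 ≤ N) (hG : 0 ≤ G) (hst : IsStencil l η) (hρdef : ρ = spread l η)
    (hρ : 0 < ρ) (hlo : lo + δ ≤ ρ) (hhi : ρ + δ ≤ hi) (hX : t ^ 2 + ‖y‖ ^ 2 ≤ R ^ 2)
    (hmax : IsMaxIn w G C₁ β N R lo hi s t y l η) (hp : p = G + s * (β - 2 * Real.sqrt ρ))
    (hplo : G / 2 ≤ p) (hps : p * s ≤ δ) (hps' : p * s ≤ ρ) (hV : 0 ≤ V) (hsV : s * V ≤ δ) (hδR : δ ≤ R / 8)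
    (hsR : s ≤ R / 8) (hsN : 16 * (s ^ 2 * N) ≤ R ^ 2) (hb : ‖b‖ ≤ δ)
    (ha : ∑ i, l i * ‖a i‖ ^ 2 ≤ (s * V) ^ 2)
    (hkey : ∀ x : F, x = ∑ i, l i • a i → ∀ c : Fin (Module.finrank ℝ F + 2) → F,
      ∑ i, l i • c i = 0 → 2 * pot w s t y l η + ‖x + b‖ ^ 2 / (4 * s) ≤
          pot w s (t + s) (y + x) l (fun i => η i + (a i - x))
          + pot w s (t - s) (y + b) l (fun i => η i + c i)
          - (∑ i, l i * ‖a i - x‖ ^ 2) / (2 * s) + (∑ i, l i * ‖c i‖ ^ 2) / (2 * s))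
    (hrad : (64 * N ^ 2 + N * (3 * V ^ 2 + 2)) / R ^ 2 < G ^ 2 / (16 * Real.sqrt ρ)) : False := by
  have hR0 : 0 ≤ R := zero_le_one.trans hR
  have ht : |t| ≤ R := abs_le_of_sq_le_sq (by linarith [sq_nonneg ‖y‖]) hR0
  have hy : ‖y‖ ≤ R := le_of_sq_le_sq (by linarith [sq_nonneg t]) hR0
  have hp0 : 0 ≤ p := by linarith
  obtain ⟨hl0, hl1, hlm⟩ := hst
  set x := ∑ i, l i • a i with hx
  obtain ⟨hx2, he2⟩ := contact_offsets hl0 hl1 (mul_nonneg hs.le hV) ha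
  have hem : ∑ i, l i • (a i - x) = 0 := by
    simp only [smul_sub, Finset.sum_sub_distrib, ← Finset.sum_smul, hl1, one_smul, ← hx, sub_self]
  set D := spread l (fun i => η i + (a i - x)) - ρ with hD
  have hDabs : |D| ≤ spread l (fun i => a i - x) := by
    rw [hD, hρdef]
    exact spread_move hl0 η _
  obtain ⟨hD1, hD2⟩ := abs_le.1 hDabs
  have hn : D ^ 2 ≤ ∑ i, l i * ‖a i - x‖ ^ 2 := by
    rw [← spread_sq hl0 (fun i => a i - x), ← sq_abs D]
    exact pow_le_pow_left₀ (abs_nonneg D) hDabs 2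
  have hcm : ∑ i, l i • (-((p * s / ρ) • η i)) = 0 := by
    simp only [smul_neg, Finset.sum_neg_distrib, smul_comm (l _) (p * s / ρ),
      ← Finset.smul_sum, hlm, smul_zero, neg_zero]
  obtain ⟨hsc, hc2⟩ := spread_shrink hl0 (η := η) (q := p * s) (hρdef ▸ hρ) (hρdef ▸ hps')
  rw [← hρdef] at hsc hc2
  have hps0 : 0 ≤ p * s := mul_nonneg hp0 hs.le
  have hP := hmax (t + s) (y + x) l (fun i => η i + (a i - x)) ⟨hl0, hl1, by
    simp only [smul_add, Finset.sum_add_distrib, hlm, hem, add_zero]⟩ (by linarith) (by linarith)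
    (in_zone hR0 ht hy (by rw [abs_of_pos hs]; exact hsR) (by linarith))
  have hM := hmax (t - s) (y + b) l (fun i => η i + -((p * s / ρ) • η i)) ⟨hl0, hl1, by
    simp only [smul_add, Finset.sum_add_distrib, hlm, hcm, add_zero]⟩
    (by rw [hsc]; linarith) (by rw [hsc]; linarith)
    (by
      rw [sub_eq_add_neg]
      exact in_zone hR0 ht hy (by rw [abs_neg, abs_of_pos hs]; exact hsR) (by linarith))
  have hk := hkey x hx _ hcm
  rw [hc2] at hk
  have hdr := Barrier.drift_step (t := t) hs hN (by linarith : 0 < R) (by linarith : ‖y‖ ≤ 2 * R)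
    hx2 hsN (b := b)
  have hga := Barrier.gain_step (Γ := G) (C := C₁) (β := β) hs hρ hp hp0 (by rw [hD]; linarith [spread_nonneg l (fun i => η i + (a i - x))]) hps' hn
  rw [show ρ + D = spread l (fun i => η i + (a i - x)) by rw [hD]; ring, ← hsc] at hga
  simp only [excess, ← hρdef] at hP hM
  refine contact_false hs hρ hG hplo hrad ?_
  linarith

/-- A positive maximum inside the zone is impossible. -/
theorem no_contact (C G : ℝ) (hG : 0 < G) : ∃ cv : ℝ, 0 < cv ∧ ∀ {w : ℝ → F → ℝ}, Prof C w →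
    IsWin C w 0 0 1 0 0 → ∀ {R lo hi C₁ β N : ℝ}, 1 ≤ R → 0 < lo → hi ≤ 3 → 0 ≤ N →
    (∀ ρ, lo ≤ ρ → ρ ≤ hi →
      (64 * N ^ 2 + N * (3 * (cv * (1 + Real.log R + |Real.log ρ|)) ^ 2 + 2)) / R ^ 2
        < G ^ 2 / (16 * Real.sqrt ρ)) →
    ∀ δ : ℝ, 0 < δ → ∃ s₀ : ℝ, 0 < s₀ ∧ ∀ s, 0 < s → s ≤ s₀ → ∀ (t : ℝ) (y : F)
      (l : Fin (Module.finrank ℝ F + 2) → ℝ) (η : Fin (Module.finrank ℝ F + 2) → F),
      IsStencil l η → lo + δ ≤ spread l η → spread l η + δ ≤ hi → t ^ 2 + ‖y‖ ^ 2 ≤ R ^ 2 →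
      ¬ IsMaxIn w G C₁ β N R lo hi s t y l η := by
  obtain ⟨cv, hcv, hvel⟩ := contact_velocity (F := F) C G
  obtain ⟨cb, hcb, hbv⟩ := back_velocity (F := F) C
  refine ⟨cv, hcv, fun {w} hw hwin {R lo hi C₁ β N} hR hlo hhi hN hrad δ hδ => ?_⟩
  obtain ⟨s₁, hs₁, hv⟩ := hvel hw hwin lo R hlo hR
  set Vm := cv * (1 + Real.log R + (|Real.log lo| + 2)) with hVm
  have hlR : 0 ≤ Real.log R := Real.log_nonneg hR
  have hVm0 : 0 < Vm := by rw [hVm]; positivity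
  set d := min (min δ lo) (R / 8) with hd
  have hd0 : 0 < d := lt_min (lt_min hδ hlo) (by linarith)
  set Q := min (min (min s₁ 1) (min (d / Vm) (G / (2 * (|β| + 4)))))
    (min (min (R / 8) (d / (2 * G))) (min (R ^ 2 / (16 * (N + 1)))
      ((d / (cb * (3 + Real.log R))) ^ 2))) with hQ
  have hQ0 : 0 < Q := by rw [hQ]; positivity
  refine ⟨Q, hQ0, fun s hs hsQ t y l η hst hρlo hρhi hX hmax => ?_⟩
  simp only [hQ, le_min_iff] at hsQ
  obtain ⟨⟨⟨hsv, hs1⟩, hsd, hsβ⟩, ⟨hsR, hsG⟩, hsN, hsb⟩ := hsQ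
  have hdδ : d ≤ δ := (min_le_left _ _).trans (min_le_left _ _)
  have hdlo : d ≤ lo := (min_le_left _ _).trans (min_le_right _ _)
  have hdR : d ≤ R / 8 := min_le_right _ _
  have hρ : 0 < spread l η := by linarith
  have hρ3 : spread l η ≤ 3 := by linarith
  obtain ⟨hp1, hp2⟩ := abs_le.1 (slope_small hG hs hsβ hρ3)
  set p := G + s * (β - 2 * Real.sqrt (spread l η)) with hp
  have hphi : p ≤ 2 * G := by linarith
  have hR0 : 0 ≤ R := zero_le_one.trans hR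
  have hR2 : R ^ 2 ≤ (2 * R) ^ 2 := pow_le_pow_left₀ hR0 (by linarith) 2
  have ht : |t| ≤ 2 * R := abs_le_of_sq_le_sq (by linarith [sq_nonneg ‖y‖]) (by linarith)
  have hy : ‖y‖ ≤ 2 * R := le_of_sq_le_sq (by linarith [sq_nonneg t]) (by linarith)
  have htouch := contact_touch hs hst hρ hδ (by linarith) hρhi (hX.trans hR2) hmax hp
    (by linarith) hphi
  obtain ⟨a, b, ha, hb, hkey⟩ := key_step hw hs hst (t := t) (y := y)
  have hv2 := hv hs hsv hst (by linarith) hρ3 ht hy htouch a ha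
  rw [← mul_pow] at hv2
  have hsV : s * (cv * (1 + Real.log R + |Real.log (spread l η)|)) ≤ d := by
    have h1 : |Real.log (spread l η)| ≤ |Real.log lo| + 2 := by
      rw [abs_le]
      have hu : Real.log (spread l η) ≤ 2 := by linarith [Real.log_le_sub_one_of_pos hρ]
      have hl := Real.log_le_log hlo (by linarith : lo ≤ spread l η)
      constructor <;> linarith [neg_abs_le (Real.log lo), abs_nonneg (Real.log lo)]
    calc s * (cv * (1 + Real.log R + |Real.log (spread l η)|))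
        ≤ d / Vm * Vm := mul_le_mul hsd (by rw [hVm]; gcongr) (by positivity) (by positivity)
      _ = d := by field_simp
  have hps : p * s ≤ d := by
    calc p * s ≤ 2 * G * (d / (2 * G)) := mul_le_mul hphi hsG hs.le (by positivity)
      _ = d := by field_simp
  have hsN' : 16 * (s ^ 2 * N) ≤ R ^ 2 := by
    rw [le_div_iff₀ (by positivity)] at hsN
    linarith [mul_le_mul_of_nonneg_right (sq_le hs.le hs1) hN]
  exact contact_kill (δ := d) hs hR hN hG.le hst rfl hρ (by linarith) (by linarith) hX hmax hp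
    (by linarith) hps (by linarith) (by positivity) hsV hdR hsR hsN'
    (back_small hcb hs hs1 hlR hd0 hsb (hbv hw hwin hR ht hy hs hs1 hb)) hv2 hkey
    (hrad _ (by linarith) (by linarith))

/-- The excess passes to the limit. -/
theorem excess_tendsto (G C₁ β N R s : ℝ) {P : ℕ → ℝ} {ρn tn : ℕ → ℝ} {yn : ℕ → F}
    {P₀ ρ t : ℝ} {y : F} (hP : Tendsto P atTop (𝓝 P₀)) (hρ : Tendsto ρn atTop (𝓝 ρ))
    (ht : Tendsto tn atTop (𝓝 t)) (hy : Tendsto yn atTop (𝓝 y)) :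
    Tendsto (fun n => P n - (G * ρn n + s * Barrier.prof C₁ β (ρn n))
      - s * N / R ^ 2 * (tn n ^ 2 + ‖yn n‖ ^ 2)) atTop
      (𝓝 (P₀ - (G * ρ + s * Barrier.prof C₁ β ρ) - s * N / R ^ 2 * (t ^ 2 + ‖y‖ ^ 2))) := by
  have hc : Continuous fun q : ℝ × ℝ × ℝ × F => q.1 - (G * q.2.1 + s * Barrier.prof C₁ β q.2.1)
      - s * N / R ^ 2 * (q.2.2.1 ^ 2 + ‖q.2.2.2‖ ^ 2) := by
    simp only [Barrier.prof]
    fun_prop
  exact (hc.tendsto (P₀, ρ, t, y)).comp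
    (hP.prodMk_nhds (hρ.prodMk_nhds (ht.prodMk_nhds hy)))

/-- The spread of the limit stays in the zone. -/
theorem limit_above {s A lo lo' σ : ℝ} (hG : 0 < G) (hρ : lo' ≤ ρ) (h : G * (ρ - σ) ≤ s * A)
    (hsA : s * A ≤ G * (lo' - lo) / 2) (hll : lo ≤ lo') : lo ≤ σ := by
  by_contra hc
  have h1 : G * (lo' - lo) < G * (ρ - σ) := mul_lt_mul_of_pos_left (by linarith) hG
  have h2 : 0 ≤ G * (lo' - lo) := mul_nonneg hG.le (by linarith)
  linarith

/-- The barrier increases with the spread. -/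
theorem profile_mono {σ : ℝ} (hG : 0 < G) (hs : 0 < s) (hsβ : s ≤ G / (2 * (|β| + 4)))
    (hσ0 : 0 ≤ σ) (hσρ : σ ≤ ρ) (hρ0 : 0 < ρ) (hρ3 : ρ ≤ 3) :
    G * σ + s * Barrier.prof C₁ β σ ≤ G * ρ + s * Barrier.prof C₁ β ρ := by
  have h1 := mul_le_mul_of_nonneg_left (Barrier.prof_tangent C₁ β hρ0 hσ0).1 hs.le
  obtain ⟨h2, -⟩ := abs_le.1 (slope_small hG hs hsβ hρ3)
  have h3 : 0 ≤ (G + s * (β - 2 * Real.sqrt ρ)) * (ρ - σ) := mul_nonneg (by linarith) (by linarith)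
  linarith

/-- The excess is nonpositive on the whole zone if it is so on its collars. -/
theorem barrier_zone (C G : ℝ) (hG : 0 < G) : ∃ cv : ℝ, 0 < cv ∧ ∀ {w : ℝ → F → ℝ}, Prof C w →
    IsWin C w 0 0 1 0 0 → ∀ {R lo lo' hi' hi C₁ β N K Λ : ℝ}, 1 ≤ R → 0 < lo → lo < lo' →
    hi' < hi → hi ≤ 3 → 0 ≤ N →
    (∀ ρ, lo ≤ ρ → ρ ≤ hi →
      (64 * N ^ 2 + N * (3 * (cv * (1 + Real.log R + |Real.log ρ|)) ^ 2 + 2)) / R ^ 2
        < G ^ 2 / (16 * Real.sqrt ρ)) →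
    (∀ ρ, lo ≤ ρ → ρ ≤ hi → -K ≤ Barrier.prof C₁ β ρ ∧ Λ ≤ Barrier.prof C₁ β ρ + N) →
    (∀ s, 0 < s → s ≤ 1 → ∀ (t : ℝ) (y : F) (l : Fin (Module.finrank ℝ F + 2) → ℝ)
      (η : Fin (Module.finrank ℝ F + 2) → F), IsStencil l η → t ^ 2 + ‖y‖ ^ 2 ≤ (2 * R) ^ 2 →
      pot w s t y l η - G * spread l η ≤ Λ * s) →
    (∃ s₁ : ℝ, 0 < s₁ ∧ ∀ s, 0 < s → s ≤ s₁ → ∀ (t : ℝ) (y : F)
      (l : Fin (Module.finrank ℝ F + 2) → ℝ) (η : Fin (Module.finrank ℝ F + 2) → F),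
      IsStencil l η → (lo ≤ spread l η ∧ spread l η ≤ lo' ∨ hi' ≤ spread l η ∧ spread l η ≤ hi) →
      t ^ 2 + ‖y‖ ^ 2 ≤ (2 * R) ^ 2 → excess w G C₁ β N R s t y l η ≤ 0) →
    ∃ s₀ : ℝ, 0 < s₀ ∧ ∀ s, 0 < s → s ≤ s₀ → ∀ (t : ℝ) (y : F)
      (l : Fin (Module.finrank ℝ F + 2) → ℝ) (η : Fin (Module.finrank ℝ F + 2) → F),
      IsStencil l η → lo ≤ spread l η → spread l η ≤ hi → t ^ 2 + ‖y‖ ^ 2 ≤ (2 * R) ^ 2 →
      excess w G C₁ β N R s t y l η ≤ 0 := by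
  obtain ⟨cv, hcv, hno⟩ := no_contact (F := F) C G hG
  refine ⟨cv, hcv, fun {w} hw hwin {R lo lo' hi' hi C₁ β N K Λ} hR hlo hll hhh hhi hN hrad hprof
    hup hcol => ?_⟩
  obtain ⟨s₁, hs₁, hcol⟩ := hcol
  obtain ⟨s₂, hs₂, hno⟩ := hno hw hwin hR hlo hhi hN hrad (C₁ := C₁) (β := β)
    (min (lo' - lo) (hi - hi') / 2) (by
      have := lt_min (sub_pos.2 hll) (sub_pos.2 hhh)
      linarith)
  set A := |Λ| + |K| + 1 with hA
  set Q := min (min (min s₁ s₂) 1) (min (G / (2 * (|β| + 4))) (G * (lo' - lo) / (2 * A))) with hQ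
  have hA0 : 0 < A := by rw [hA]; positivity
  have hQ0 : 0 < Q := by
    have : 0 < lo' - lo := sub_pos.2 hll
    rw [hQ]; positivity
  refine ⟨Q, hQ0, fun s hs hsQ => ?_⟩
  simp only [hQ, le_min_iff] at hsQ
  obtain ⟨⟨⟨hsc, hsn⟩, hs1⟩, hsβ, hsA⟩ := hsQ
  have hmid : ∀ t (y : F) (l : Fin (Module.finrank ℝ F + 2) → ℝ)
      (η : Fin (Module.finrank ℝ F + 2) → F), IsStencil l η → lo ≤ spread l η →
      spread l η ≤ hi → t ^ 2 + ‖y‖ ^ 2 ≤ (2 * R) ^ 2 → 0 < excess w G C₁ β N R s t y l η →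
      lo' < spread l η ∧ spread l η < hi' ∧ t ^ 2 + ‖y‖ ^ 2 < R ^ 2 := by
    intro t y l η hst h1 h2 h3 h4
    refine ⟨lt_of_not_ge fun h => ?_, lt_of_not_ge fun h => ?_, lt_of_not_ge fun h => ?_⟩
    · linarith [hcol s hs hsc t y l η hst (Or.inl ⟨h1, h⟩) h3]
    · linarith [hcol s hs hsc t y l η hst (Or.inr ⟨h, h2⟩) h3]
    · have h5 := hup s hs hs1 t y l η hst h3
      have h6 := mul_le_mul_of_nonneg_left (hprof _ h1 h2).2 hs.le
      have h7 : s * N * 1 ≤ s * N * ((t ^ 2 + ‖y‖ ^ 2) / R ^ 2) := by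
        refine mul_le_mul_of_nonneg_left ?_ (by positivity)
        rw [le_div_iff₀ (by positivity), one_mul]
        exact h
      simp only [excess] at h4
      rw [show s * N / R ^ 2 * (t ^ 2 + ‖y‖ ^ 2) = s * N * ((t ^ 2 + ‖y‖ ^ 2) / R ^ 2) by ring]
        at h4
      linarith
  by_contra hneg
  push Not at hneg
  obtain ⟨t₀, y₀, l₀, η₀, hst₀, hlo₀, hhi₀, hX₀, hpos⟩ := hneg
  set S := {v : ℝ | ∃ t, ∃ y : F, ∃ (l : Fin (Module.finrank ℝ F + 2) → ℝ)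
    (η : Fin (Module.finrank ℝ F + 2) → F), IsStencil l η ∧ lo ≤ spread l η ∧ spread l η ≤ hi ∧
      t ^ 2 + ‖y‖ ^ 2 ≤ (2 * R) ^ 2 ∧ v = excess w G C₁ β N R s t y l η} with hS
  have hne : S.Nonempty := ⟨_, t₀, y₀, l₀, η₀, hst₀, hlo₀, hhi₀, hX₀, rfl⟩
  have hbd : BddAbove S := ⟨Λ * s + K * s, by
    rintro v ⟨t, y, l, η, hst, h1, h2, h3, rfl⟩
    have h5 := hup s hs hs1 t y l η hst h3
    have h6 := mul_le_mul_of_nonneg_left (hprof _ h1 h2).1 hs.le
    have h7 : 0 ≤ s * N / R ^ 2 * (t ^ 2 + ‖y‖ ^ 2) := by positivity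
    simp only [excess]
    linarith⟩
  have hSpos : 0 < sSup S := hpos.trans_le (le_csSup hbd ⟨t₀, y₀, l₀, η₀, hst₀, hlo₀, hhi₀, hX₀, rfl⟩)
  obtain ⟨u, -, hu, hmem⟩ := exists_seq_tendsto_sSup hne hbd
  choose tn yn L E hstn hlon hhin hXn hun using hmem
  obtain ⟨⟨⟨t, y⟩, ρ⟩, -, φ₁, hφ₁, hlim⟩ :=
    ((isCompact_Icc (a := -(2 * R)) (b := 2 * R)).prod
      (isCompact_closedBall (0 : F) (2 * R))).prod (isCompact_Icc (a := lo) (b := hi))
      |>.tendsto_subseq (x := fun n => ((tn n, yn n), spread (L n) (E n))) fun n => by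
        refine ⟨⟨abs_le.1 (abs_le_of_sq_le_sq (by nlinarith [hXn n, sq_nonneg ‖yn n‖])
          (by linarith)), ?_⟩, hlon n, hhin n⟩
        rw [mem_closedBall_zero_iff]
        exact le_of_sq_le_sq (by nlinarith [hXn n, sq_nonneg (tn n)]) (by linarith)
  rw [nhds_prod_eq, nhds_prod_eq, tendsto_prod_iff', tendsto_prod_iff'] at hlim
  obtain ⟨⟨ht, hy⟩, hρ⟩ := hlim
  simp only [Function.comp_def] at ht hy hρ
  obtain ⟨φ₂, l, η, hφ₂, hst, hsemi, hpot⟩ := pot_subseq hw hs ht hy (L := fun n => L (φ₁ n))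
    (η := fun n => E (φ₁ n)) (fun n => hstn _) (fun n => hhin _)
  have hφ := hφ₂.tendsto_atTop
  have htt : Tendsto (fun n => tn (φ₁ (φ₂ n))) atTop (𝓝 t) := ht.comp hφ
  have hyy : Tendsto (fun n => yn (φ₁ (φ₂ n))) atTop (𝓝 y) := hy.comp hφ
  have hρρ : Tendsto (fun n => spread (L (φ₁ (φ₂ n))) (E (φ₁ (φ₂ n)))) atTop (𝓝 ρ) := hρ.comp hφ
  have huu : Tendsto (fun n => u (φ₁ (φ₂ n))) atTop (𝓝 (sSup S)) :=
    hu.comp (hφ₁.tendsto_atTop.comp hφ)
  set σ := spread l η with hσ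
  have hσρ : σ ≤ ρ := le_of_forall_pos_le_add fun e he => by
    refine le_of_tendsto_of_tendsto tendsto_const_nhds (hρρ.add_const e) ?_
    filter_upwards [hsemi e he] with n hn using hn
  have hev : ∀ᶠ n in atTop, 0 < u (φ₁ (φ₂ n)) := huu.eventually (lt_mem_nhds hSpos)
  have hρlo : lo' ≤ ρ ∧ ρ ≤ hi' := by
    refine ⟨ge_of_tendsto hρρ ?_, le_of_tendsto hρρ ?_⟩ <;>
      filter_upwards [hev] with n hn <;> rw [hun] at hn
    · exact (hmid _ _ _ _ (hstn _) (hlon _) (hhin _) (hXn _) hn).1.le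
    · exact (hmid _ _ _ _ (hstn _) (hlon _) (hhin _) (hXn _) hn).2.1.le
  have hX : t ^ 2 + ‖y‖ ^ 2 ≤ (2 * R) ^ 2 := by
    refine le_of_tendsto ((htt.pow 2).add (hyy.norm.pow 2)) (Eventually.of_forall fun n => hXn _)
  have hρ0 : 0 < ρ := by linarith [hρlo.1]
  have hval : sSup S = pot w s t y l η - (G * ρ + s * Barrier.prof C₁ β ρ)
      - s * N / R ^ 2 * (t ^ 2 + ‖y‖ ^ 2) := tendsto_nhds_unique huu
    ((excess_tendsto G C₁ β N R s hpot hρρ htt hyy).congr fun n => (hun (φ₁ (φ₂ n))).symm)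
  have hprK := mul_le_mul_of_nonneg_left (hprof ρ (by linarith [hρlo.1]) (by linarith [hρlo.2])).1 hs.le
  have hupl := hup s hs hs1 t y l η hst hX
  have hsA' : s * A ≤ G * (lo' - lo) / 2 := by
    rw [le_div_iff₀ (by positivity)] at hsA
    linarith
  have h7 : 0 ≤ s * N / R ^ 2 * (t ^ 2 + ‖y‖ ^ 2) := by positivity
  have hΛK := mul_le_mul_of_nonneg_left
    (show Λ + K ≤ A by rw [hA]; linarith [le_abs_self Λ, le_abs_self K]) hs.le
  have hσlo : lo ≤ σ := limit_above hG hρlo.1 (by linarith) hsA' hll.le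
  have hmono := profile_mono hG hs hsβ (by linarith : 0 ≤ σ) hσρ hρ0 (by linarith [hρlo.2]) (C₁ := C₁)
  have hσhi : σ ≤ hi := by linarith [hρlo.2]
  have hge : sSup S ≤ excess w G C₁ β N R s t y l η := by
    rw [hval]
    simp only [excess, ← hσ]
    linarith
  have hpos' : 0 < excess w G C₁ β N R s t y l η := hSpos.trans_le hge
  obtain ⟨k1, k2, k3⟩ := hmid t y l η hst hσlo hσhi hX hpos'
  have hm1 : min (lo' - lo) (hi - hi') ≤ lo' - lo := min_le_left _ _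
  have hm2 : min (lo' - lo) (hi - hi') ≤ hi - hi' := min_le_right _ _
  refine hno s hs hsn t y l η hst (by linarith) (by linarith) k3.le
    fun t' y' l' η' a1 a2 a3 a4 => ?_
  exact (le_csSup hbd ⟨t', y', l', η', a1, a2, a3, a4, rfl⟩).trans hge

end Vale.Agent.P080.C1
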