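import Vale.Agent.P080.C1.Jensen

/-!
A7, step 3a: at a maximiser of the stencil potential the slices of the forward value at the atoms
are touched above, so the offsets of the two children move with the window velocity.
-/

namespace Vale.Agent.P080.C1

open Set Filter Topology
open scoped RealInnerProductSpace

set_option linter.unusedSectionVars false

variable {F : Type*} [NormedAddCommGroup F] [InnerProductSpace ℝ F] [FiniteDimensional ℝ F]
variable {C : ℝ} {w : ℝ → F → ℝ}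

/-- If no nearby stencil gains more than `p` times the change of the spread, the integrand is
touched above at each atom by a paraboloid. -/
theorem touched_of_max {f : F → ℝ} {p ε₀ : ℝ} {m : ℕ} {l : Fin m → ℝ} {η : Fin m → F}
    (hs : IsStencil l η) (hρ : 0 < spread l η) (hp : 0 ≤ p) (hε₀ : 0 < ε₀)
    (hmax : ∀ (k : ℕ) (L : Fin k → ℝ) (E : Fin k → F), IsStencil L E →
      spread l η ≤ spread L E → spread L E ≤ spread l η + ε₀ →
      ∑ j, L j * f (E j) ≤ ∑ i, l i * f (η i) + p * (spread L E - spread l η))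
    {i : Fin m} (hi : 0 < l i) :
    ∃ q : F, ∀ z, f (η i + z) ≤ f (η i) + ⟪q, z⟫ + p / 2 / spread l η * ‖z‖ ^ 2 := by
  obtain ⟨hl, hl1, hl0⟩ := hs
  set ρ := spread l η with hρdef
  obtain ⟨q, hq⟩ := touching (f := fun z => f (η i + z) - f (η i) - p / 2 / ρ * ‖z‖ ^ 2)
    (by simp) (by
    intro k ν ζ hν
    obtain ⟨hν0, hν1, hνm⟩ := hν
    set σ2 := ∑ j, ν j * ‖ζ j‖ ^ 2 with hσ
    have hσ0 : 0 ≤ σ2 := Finset.sum_nonneg fun j _ => mul_nonneg (hν0 j) (sq_nonneg _)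
    have hA : 0 < l i * σ2 + 1 := by positivity
    set ε := min (1 / 2) (ρ * ε₀ / (l i * σ2 + 1)) with hεdef
    have hε : 0 < ε := lt_min (by norm_num) (by positivity)
    have hε1 : ε ≤ 1 / 2 := min_le_left _ _
    have hε2 : ε * (l i * σ2 + 1) ≤ ρ * ε₀ := (le_div_iff₀ hA).1 (min_le_right _ _)
    set ν' : Fin (k + 1) → ℝ := Fin.cons (1 - ε) (fun j => ε * ν j) with hν'
    set ζ' : Fin (k + 1) → F := Fin.cons 0 ζ with hζ'
    set L : Fin (m + (k + 1)) → ℝ :=
      Fin.append (Function.update l i 0) (fun j => l i * ν' j) with hL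
    set E : Fin (m + (k + 1)) → F := Fin.append η (fun j => η i + ζ' j) with hE
    have key : ∀ g : F → F,
        ∑ j, L j • g (E j) = (∑ j, l j • g (η j) - l i • g (η i)) +
          l i • ((1 - ε) • g (η i) + ε • ∑ j, ν j • g (η i + ζ j)) := by
      intro g
      rw [append_sum l ν' η ζ' i g, Fin.sum_univ_succ]
      simp only [hν', hζ', Fin.cons_zero, Fin.cons_succ, add_zero, ← smul_smul, Finset.smul_sum]
    have keyR : ∀ g : F → ℝ, ∑ j, L j * g (E j) = (∑ j, l j * g (η j) - l i * g (η i)) +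
        l i * ((1 - ε) * g (η i) + ε * ∑ j, ν j * g (η i + ζ j)) := fun g => by
      have h := append_sum l ν' η ζ' i g
      simp only [smul_eq_mul] at h
      rw [h, Fin.sum_univ_succ]
      simp only [hν', hζ', Fin.cons_zero, Fin.cons_succ, add_zero, Finset.mul_sum, mul_assoc]
    have hst : IsStencil L E := by
      refine ⟨fun j => ?_, ?_, ?_⟩
      · refine Fin.addCases (fun a => ?_) (fun b => ?_) j
        · rw [hL, Fin.append_left]
          rcases eq_or_ne a i with rfl | ha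
          · rw [Function.update_self]
          · rw [Function.update_of_ne ha]; exact hl a
        · rw [hL, Fin.append_right]
          refine mul_nonneg hi.le ?_
          refine Fin.cases ?_ (fun c => ?_) b
          · simp only [hν', Fin.cons_zero]; linarith
          · simp only [hν', Fin.cons_succ]; exact mul_nonneg hε.le (hν0 c)
      · have h := keyR fun _ => 1
        simp only [mul_one] at h
        rw [h, hl1, hν1]; ring
      · have h := key fun x => x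
        simp_rw [smul_add] at h
        rw [Finset.sum_add_distrib, ← Finset.sum_smul, hν1, one_smul, hνm, add_zero, hl0] at h
        rw [h]; module
    have hsq : spread L E ^ 2 = ρ ^ 2 + l i * ε * σ2 := by
      have h := keyR fun x => ‖x‖ ^ 2
      have e : ∑ j, ν j * ‖η i + ζ j‖ ^ 2 = ‖η i‖ ^ 2 + σ2 := by
        have e1 : ∀ j, ν j * ‖η i + ζ j‖ ^ 2 =
            ν j * ‖η i‖ ^ 2 + 2 * ⟪η i, ν j • ζ j⟫ + ν j * ‖ζ j‖ ^ 2 := fun j => by
          rw [norm_add_sq_real, real_inner_smul_right]; ring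
        simp_rw [e1]
        rw [Finset.sum_add_distrib, Finset.sum_add_distrib, ← Finset.sum_mul, hν1,
          ← Finset.mul_sum, ← inner_sum, hνm, inner_zero_right]
        ring
      rw [spread_sq hst.1, h, e, hρdef, spread_sq hl]
      ring
    have hLE0 : 0 ≤ spread L E := Real.sqrt_nonneg _
    have hpos : 0 ≤ l i * ε * σ2 := by positivity
    have hlow : ρ ≤ spread L E := by nlinarith
    have hup : spread L E ≤ ρ + l i * ε * σ2 / (2 * ρ) := by
      have e : (ρ + l i * ε * σ2 / (2 * ρ)) ^ 2 =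
          ρ ^ 2 + l i * ε * σ2 + (l i * ε * σ2 / (2 * ρ)) ^ 2 := by field_simp; ring
      have h0 : 0 ≤ ρ + l i * ε * σ2 / (2 * ρ) := by positivity
      nlinarith [sq_nonneg (l i * ε * σ2 / (2 * ρ))]
    have hsmall : l i * ε * σ2 / (2 * ρ) ≤ ε₀ := by
      rw [div_le_iff₀ (by positivity)]
      linarith
    have h1 := hmax _ L E hst hlow (hup.trans (by linarith))
    rw [keyR f] at h1
    have h2 := mul_le_mul_of_nonneg_left (sub_le_iff_le_add'.2 hup) hp
    have e4 : ∑ j, ν j * (f (η i + ζ j) - f (η i) - p / 2 / ρ * ‖ζ j‖ ^ 2) =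
        ∑ j, ν j * f (η i + ζ j) - f (η i) - p / 2 / ρ * σ2 := by
      simp only [mul_sub, Finset.sum_sub_distrib, ← Finset.sum_mul, hν1, one_mul, hσ,
        Finset.mul_sum]
      congr 1
      exact Finset.sum_congr rfl fun j _ => by ring
    rw [e4]
    refine nonpos_of_mul_nonpos_right (?_ : l i * ε * _ ≤ 0) (mul_pos hi hε)
    have e5 : p * (l i * ε * σ2 / (2 * ρ)) = l i * ε * (p / 2 / ρ * σ2) := by ring
    linarith)
  exact ⟨q, fun z => by linarith [hq z]⟩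

/-- The maximiser at a point where the forward value is touched above is the slope. -/
theorem maximiser_eq_slope (hw : Prof C w) {s K : ℝ} (hs : 0 < s) (hK : 0 ≤ K) {t : ℝ} {A q z : F}
    (htouch : ∀ ξ, hlP w s t (A + ξ) ≤ hlP w s t A + ⟪q, ξ⟫ + K * ‖ξ‖ ^ 2)
    (hz : hlP w s t A = w (t + s) (A + z) - ‖z‖ ^ 2 / (2 * s)) : z = s • q := by
  have h : ∀ ξ, ⟪z - s • q, ξ⟫ ≤ (s * K + 1) * ‖ξ‖ ^ 2 := by
    intro ξ
    have h1 := le_hlP hw hs t (A + ξ) (z - ξ)
    rw [show A + ξ + (z - ξ) = A + z by abel] at h1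
    have h2 := htouch ξ
    have h3 : ‖z‖ ^ 2 / (2 * s) - ‖z - ξ‖ ^ 2 / (2 * s) ≤ ⟪q, ξ⟫ + K * ‖ξ‖ ^ 2 := by linarith
    rw [← sub_div, div_le_iff₀ (by positivity), norm_sub_sq_real] at h3
    rw [inner_sub_left, real_inner_smul_left]
    nlinarith [sq_nonneg ‖ξ‖]
  set u := z - s • q with hu
  have hK1 : 0 < s * K + 1 := by positivity
  have h1 := h ((2 * (s * K + 1))⁻¹ • u)
  rw [real_inner_smul_right, real_inner_self_eq_norm_sq, norm_smul, mul_pow,
    Real.norm_eq_abs, sq_abs] at h1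
  have e : (s * K + 1) * ((2 * (s * K + 1))⁻¹ ^ 2 * ‖u‖ ^ 2) =
      (2 * (s * K + 1))⁻¹ * ‖u‖ ^ 2 / 2 := by field_simp
  rw [e] at h1
  have h2 : (2 * (s * K + 1))⁻¹ * ‖u‖ ^ 2 ≤ 0 := by linarith
  have h3 : ‖u‖ ^ 2 ≤ 0 := nonpos_of_mul_nonpos_right h2 (by positivity)
  have h4 : ‖u‖ = 0 := by nlinarith [norm_nonneg u]
  exact sub_eq_zero.1 (norm_eq_zero.1 h4)

/-- A maximiser of the second step is half of a maximiser of the double step. -/
theorem offset_half (hw : Prof C w) {s : ℝ} (hs : 0 < s) {t : ℝ} {A a : F}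
    (ha : hlP (hlP w s) s t A = hlP w s (t + s) (A + a) - ‖a‖ ^ 2 / (2 * s)) :
    hlP w (2 * s) t A = w (t + 2 * s) (A + (2 : ℝ) • a) - ‖(2 : ℝ) • a‖ ^ 2 / (2 * (2 * s)) := by
  obtain ⟨z, hz⟩ := hlP_attained hw hs (t + s) (A + a)
  rw [show t + s + s = t + 2 * s by ring, add_assoc A a z] at hz
  rw [hlP_semigroup hw hs hs, show s + s = 2 * s by ring, hz] at ha
  have h1 := le_hlP hw (by linarith : 0 < 2 * s) t A (a + z)
  have e : ‖a + z‖ ^ 2 / (2 * (2 * s)) + ‖a - z‖ ^ 2 / (2 * (2 * s)) =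
      ‖z‖ ^ 2 / (2 * s) + ‖a‖ ^ 2 / (2 * s) := by
    rw [norm_add_sq_real, norm_sub_sq_real]
    field_simp
    ring
  have h2 : 0 ≤ ‖a - z‖ ^ 2 / (2 * (2 * s)) := by positivity
  have h3 : ‖a - z‖ ^ 2 / (2 * (2 * s)) = 0 := by linarith
  have hzero : a = z := by
    rw [div_eq_zero_iff] at h3
    rcases h3 with h3 | h3
    · exact sub_eq_zero.1 (norm_eq_zero.1 (pow_eq_zero_iff two_ne_zero |>.1 h3))
    · linarith
  subst hzero
  rw [two_smul]
  linarith

/-- The offset at an atom touched above moves with the window velocity. -/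
theorem atom_offset (C : ℝ) : ∃ c : ℝ, 0 < c ∧ ∀ {w : ℝ → F → ℝ}, Prof C w →
    ∀ {s ρ p b t : ℝ} {A v q a : F}, 0 < s → 2 * s ≤ ρ → 0 ≤ p → IsWin C w t A ρ b v →
      (∀ ξ, hlP w s t (A + ξ) ≤ hlP w s t A + ⟪q, ξ⟫ + p / 2 / ρ * ‖ξ‖ ^ 2) →
      hlP (hlP w s) s t A = hlP w s (t + s) (A + a) - ‖a‖ ^ 2 / (2 * s) →
      ‖a - s • v‖ ≤ c * (1 + p) * s := by
  obtain ⟨c₁, hc₁, hb⟩ := hlP_bound (F := F) C
  obtain ⟨c₂, hc₂, hsp⟩ := drift_space (F := F) C
  obtain ⟨c₃, hc₃, hsc⟩ := drift_scale (F := F) C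
  refine ⟨|C| + 5 * c₁ + 4 * c₂ + 4 * c₃ + 1, by positivity, ?_⟩
  intro w hw s ρ p b t A v q a hs hsρ hp hwin htouch ha
  have hρ : 0 < ρ := by linarith
  have hsr : s ≤ ρ := by linarith
  obtain ⟨bs, vs, hws⟩ := hw.window t A s hs
  obtain ⟨b₂, v₂, hw₂⟩ := hw.window t A (2 * s) (by linarith)
  obtain ⟨z, hz⟩ := hlP_attained hw hs t A
  have hzq := maximiser_eq_slope hw hs (by positivity) htouch hz
  obtain ⟨hSs, -, hzb, -⟩ := hb hw hs hws
  have hq1 : ‖q - vs‖ ≤ c₁ := by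
    have h := hzb z hz
    rw [hzq, ← smul_sub, norm_smul, Real.norm_of_nonneg hs.le, mul_comm c₁ s] at h
    exact le_of_mul_le_mul_left h hs
  obtain ⟨-, -, hab, -⟩ := hb hw (by linarith : 0 < 2 * s) hw₂
  have ha2 : ‖a - s • v₂‖ ≤ c₁ * s := by
    have h := hab _ (offset_half hw hs ha)
    rw [show (2 : ℝ) • a - (2 * s) • v₂ = (2 : ℝ) • (a - s • v₂) by module, norm_smul,
      Real.norm_of_nonneg (by norm_num : (0 : ℝ) ≤ 2)] at h
    linarith
  have h12 : ‖v₂ - vs‖ ≤ 2 * c₃ := by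
    have h := (hsc hw hs (by linarith) hw₂ hws).1
    rw [show 2 * s / s = 2 by field_simp] at h
    have : Real.log 2 ≤ 1 := by linarith [Real.log_le_sub_one_of_pos (by norm_num : (0 : ℝ) < 2)]
    rw [norm_sub_rev]
    nlinarith
  -- the slope against the window of the spread
  have hlog : s * (1 + Real.log (ρ / s)) ≤ ρ := by
    have h := mul_le_mul_of_nonneg_left
      (Real.log_le_sub_one_of_pos (div_pos hρ hs)) hs.le
    rw [mul_sub, mul_one, mul_div_cancel₀ _ hs.ne'] at h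
    linarith
  set K := |C| + 2 * c₁ + 4 * c₂ + 2 * c₃ + p / 2 with hK
  have hlow : ∀ ξ : F, ‖ξ‖ = ρ → -(K * ρ) ≤ ⟪q - v, ξ⟫ := by
    intro ξ hξ
    obtain ⟨bx, vx, hwx⟩ := hw.window t (A + ξ) ρ hρ
    obtain ⟨bxs, vxs, hwxs⟩ := hw.window t (A + ξ) s hs
    have hSx := (hb hw hs hwxs).1
    have h1 := (hsp hw hρ hwin 0 ξ (b' := bx) (v' := vx) (by simpa using hwx) 1
      (by rw [abs_zero, zero_add, hξ, div_self hρ.ne'])).2
    have h1' : |bx - b| ≤ 4 * c₂ := by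
      have l2 : Real.log (1 + 1) ≤ 1 := by
        linarith [Real.log_le_sub_one_of_pos (by norm_num : (0 : ℝ) < 1 + 1)]
      have l0 : 0 ≤ Real.log (1 + 1) := Real.log_nonneg (by norm_num)
      have h := mul_le_mul_of_nonneg_left
        (pow_le_pow_left₀ (by linarith) (by linarith : 1 + Real.log (1 + 1) ≤ 2) 2) hc₂.le
      linarith
    have h2 := (hsc hw hs hsr hwin hws).2
    have h3 := (hsc hw hs hsr hwx hwxs).2
    have h4 := hwin 0 ξ (by rw [abs_zero]; exact hρ.le) hξ.le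
    simp only [add_zero, zero_smul, mul_zero, sub_zero] at h4
    have h5 := htouch ξ
    rw [hξ, show p / 2 / ρ * ρ ^ 2 = p / 2 * ρ by field_simp] at h5
    have e : ∀ x, hlP w s t x = w t x + s * Sp w s t x := fun x => by
      unfold Sp; field_simp; ring
    rw [e, e] at h5
    have hdiff : -(2 * c₁ + 4 * c₂ + 2 * (c₃ * (1 + Real.log (ρ / s)))) ≤
        Sp w s t (A + ξ) - Sp w s t A := by
      linarith [(abs_le.1 hSx).1, (abs_le.1 hSs).2, (abs_le.1 h1').1, (abs_le.1 h2).2,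
        (abs_le.1 h3).1]
    have h6 := mul_le_mul_of_nonneg_left hdiff hs.le
    have h7 := mul_le_mul_of_nonneg_left hlog hc₃.le
    have h8 := mul_le_mul_of_nonneg_left hsr hc₁.le
    have h9 := mul_le_mul_of_nonneg_left hsr hc₂.le
    have h10 := mul_le_mul_of_nonneg_right (le_abs_self C) hρ.le
    rw [inner_sub_left]
    rw [hK]
    linarith [(abs_le.1 h4).1]
  have hq2 : ‖q - v‖ ≤ K := by
    rcases eq_or_ne (q - v) 0 with h0 | h0
    · rw [h0, norm_zero, hK]; positivity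
    have hn : 0 < ‖q - v‖ := norm_pos_iff.2 h0
    have h := hlow ((-ρ / ‖q - v‖) • (q - v)) (by
      rw [norm_smul, norm_div, norm_norm, norm_neg, Real.norm_of_nonneg hρ.le,
        div_mul_cancel₀ _ hn.ne'])
    rw [real_inner_smul_right, real_inner_self_eq_norm_sq,
      show -ρ / ‖q - v‖ * ‖q - v‖ ^ 2 = -(ρ * ‖q - v‖) by field_simp] at h
    exact le_of_mul_le_mul_left (by linarith) hρ
  have hsum : ‖a - s • v‖ ≤ c₁ * s + s * (2 * c₃ + c₁ + K) := by
    have e : a - s • v = (a - s • v₂) + s • ((v₂ - vs) + (vs - q) + (q - v)) := by module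
    rw [e]
    refine (norm_add_le _ _).trans (add_le_add ha2 ?_)
    rw [norm_smul, Real.norm_of_nonneg hs.le]
    refine mul_le_mul_of_nonneg_left ?_ hs.le
    have := norm_add_le ((v₂ - vs) + (vs - q)) (q - v)
    have := norm_add_le (v₂ - vs) (vs - q)
    rw [norm_sub_rev vs q] at *
    linarith
  refine hsum.trans ?_
  rw [hK]
  have h0 : 0 ≤ s * p * (|C| + 5 * c₁ + 4 * c₂ + 4 * c₃) := by positivity
  linarith [mul_nonneg hs.le hp, mul_pos hs hc₁, mul_nonneg hs.le (abs_nonneg C)]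

/-- The offsets of all atoms at a maximiser, in mean square. -/
theorem atom_velocity (C : ℝ) : ∃ c : ℝ, 0 < c ∧ ∀ {w : ℝ → F → ℝ}, Prof C w →
    ∀ {m : ℕ} {t : ℝ} {y : F} {l : Fin m → ℝ} {η : Fin m → F} {s p b : ℝ} {v : F},
      IsStencil l η → 0 < s → 2 * s ≤ spread l η → 0 ≤ p →
      IsWin C w t y (spread l η) b v →
      (∀ i, 0 < l i → ∃ q : F, ∀ z, hlP w s t (y + η i + z) ≤
        hlP w s t (y + η i) + ⟪q, z⟫ + p / 2 / spread l η * ‖z‖ ^ 2) →
      ∀ a : Fin m → F,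
        (∀ i, hlP (hlP w s) s t (y + η i) =
          hlP w s (t + s) (y + η i + a i) - ‖a i‖ ^ 2 / (2 * s)) →
        ∑ i, l i * ‖a i - s • v‖ ^ 2 ≤ (c * (1 + p) * s) ^ 2 := by
  obtain ⟨c₀, hc₀, hoff⟩ := atom_offset (F := F) C
  obtain ⟨c₂, hc₂, hsp⟩ := drift_space (F := F) C
  refine ⟨2 * (c₀ + c₂), by positivity, ?_⟩
  intro w hw m t y l η s p b v hst hs hsρ hp hwin htouch a ha
  have hρ : 0 < spread l η := by linarith
  set ρ := spread l η with hρdef
  set K := (c₀ + c₂) * (1 + p) * s with hKdef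
  have hterm : ∀ i, l i * ‖a i - s • v‖ ^ 2 ≤
      2 * K ^ 2 * l i + 2 * K ^ 2 / ρ ^ 2 * (l i * ‖η i‖ ^ 2) := by
    intro i
    rcases (hst.1 i).eq_or_lt with h0 | h0
    · rw [← h0]; simp
    obtain ⟨q, hq⟩ := htouch i h0
    obtain ⟨bi, vi, hwi⟩ := hw.window t (y + η i) ρ hρ
    have h1 := hoff hw hs hsρ hp hwi (q := q)
      hq (ha i)
    have h2 := (hsp hw hρ hwin 0 (η i) (b' := bi) (v' := vi) (by simpa using hwi) _ rfl).1
    rw [abs_zero, zero_add] at h2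
    set r := ‖η i‖ / ρ with hr
    have hr0 : 0 ≤ r := by positivity
    have h3 : ‖vi - v‖ ≤ c₂ * (1 + r) := h2.trans (mul_le_mul_of_nonneg_left
      (by linarith [Real.log_le_sub_one_of_pos (show 0 < 1 + r by linarith)]) hc₂.le)
    have h4 : ‖a i - s • v‖ ≤ K * (1 + r) := by
      have e : a i - s • v = (a i - s • vi) + s • (vi - v) := by module
      rw [e]
      refine (norm_add_le _ _).trans ?_
      rw [norm_smul, Real.norm_of_nonneg hs.le, hKdef]
      have := mul_le_mul_of_nonneg_left h3 hs.le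
      have : 0 ≤ c₀ * (1 + p) * s * r := by positivity
      have : 0 ≤ c₂ * p * s * (1 + r) := by positivity
      linarith
    have h5 : ‖a i - s • v‖ ^ 2 ≤ K ^ 2 * (2 + 2 * r ^ 2) := by
      refine (pow_le_pow_left₀ (norm_nonneg _) h4 2).trans ?_
      rw [mul_pow]
      exact mul_le_mul_of_nonneg_left (by nlinarith [sq_nonneg (r - 1)]) (sq_nonneg K)
    refine (mul_le_mul_of_nonneg_left h5 h0.le).trans (le_of_eq ?_)
    rw [hr, div_pow]; ring
  refine (Finset.sum_le_sum fun i _ => hterm i).trans (le_of_eq ?_)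
  rw [Finset.sum_add_distrib, ← Finset.mul_sum, ← Finset.mul_sum, hst.2.1, hρdef,
    ← spread_sq hst.1, div_mul_cancel₀ _ (by positivity), hKdef]
  ring

/-- At a maximiser of `Σ l f - ψ (spread)` among stencils of few atoms the integrand is touched
above at the atoms. -/
theorem contact_touched {f : F → ℝ} {ψ : ℝ → ℝ} {p : ℝ}
    {l : Fin (Module.finrank ℝ F + 2) → ℝ} {η : Fin (Module.finrank ℝ F + 2) → F}
    (hs : IsStencil l η) (hρ : 0 < spread l η) (hp : 0 ≤ p)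
    (hψ : ∀ r, spread l η ≤ r → ψ r ≤ ψ (spread l η) + p * (r - spread l η))
    (hmax : ∃ e : ℝ, 0 < e ∧ ∀ (l' : Fin (Module.finrank ℝ F + 2) → ℝ)
      (η' : Fin (Module.finrank ℝ F + 2) → F), IsStencil l' η' →
        spread l η ≤ spread l' η' → spread l' η' ≤ spread l η + e →
        ∑ i, l' i * f (η' i) - ψ (spread l' η') ≤ ∑ i, l i * f (η i) - ψ (spread l η))
    {i : Fin (Module.finrank ℝ F + 2)} (hi : 0 < l i) :
    ∃ q : F, ∀ z, f (η i + z) ≤ f (η i) + ⟪q, z⟫ + p / 2 / spread l η * ‖z‖ ^ 2 := by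
  obtain ⟨e, he, hmax⟩ := hmax
  refine touched_of_max hs hρ hp he (fun k L E hst h1 h2 => ?_) hi
  obtain ⟨l', η', hst', hsp, hsum⟩ := caratheodory hst f
  have h3 := hmax l' η' hst' (hsp.symm ▸ h1) (hsp.symm ▸ h2)
  rw [hsp] at h3
  linarith [hψ _ h1]

/-- Windows around the origin of a normalised profile. -/
theorem window_bound (C : ℝ) : ∃ c : ℝ, 0 < c ∧ ∀ {w : ℝ → F → ℝ}, Prof C w →
    IsWin C w 0 0 1 0 0 → ∀ {R t ρ b : ℝ} {y v : F}, 1 ≤ R → |t| ≤ 4 * R → ‖y‖ ≤ 4 * R → 0 < ρ →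
      IsWin C w t y ρ b v →
      ‖v‖ ≤ c * (1 + Real.log R + |Real.log ρ|) ∧
        |b| ≤ c * ((1 + Real.log R) ^ 2 + |Real.log ρ|) := by
  obtain ⟨c₂, hc₂, hsp⟩ := drift_space (F := F) C
  obtain ⟨c₃, hc₃, hsc⟩ := drift_scale (F := F) C
  refine ⟨81 * c₂ + c₃, by positivity, ?_⟩
  intro w hw hwin R t ρ b y v hR ht hy hρ hwinρ
  obtain ⟨b₁, v₁, hw₁⟩ := hw.window t y 1 one_pos
  have hq0 : 0 ≤ |t| + ‖y‖ := by positivity
  obtain ⟨h1, h2⟩ := hsp hw one_pos hwin t y (b' := b₁) (v' := v₁)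
    (by simpa using hw₁) (|t| + ‖y‖) (by simp)
  simp only [sub_zero] at h1 h2
  have hlR : 0 ≤ Real.log R := Real.log_nonneg hR
  have hl : Real.log (1 + (|t| + ‖y‖)) ≤ 8 + Real.log R := by
    refine (Real.log_le_log (by linarith) (by linarith : 1 + (|t| + ‖y‖) ≤ 9 * R)).trans ?_
    rw [Real.log_mul (by norm_num) (by linarith)]
    linarith [Real.log_le_sub_one_of_pos (by norm_num : (0 : ℝ) < 9)]
  have hl0 : 0 ≤ Real.log (1 + (|t| + ‖y‖)) := Real.log_nonneg (by linarith)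
  have h3 : ‖v₁‖ ≤ 9 * c₂ * (1 + Real.log R) :=
    h1.trans (by nlinarith [mul_nonneg hc₂.le hlR, mul_le_mul_of_nonneg_left hl hc₂.le])
  have h4 : |b₁| ≤ 81 * c₂ * (1 + Real.log R) ^ 2 := by
    refine h2.trans ?_
    have h := pow_le_pow_left₀ (by linarith)
      (by linarith : 1 + Real.log (1 + (|t| + ‖y‖)) ≤ 9 * (1 + Real.log R)) 2
    nlinarith [mul_le_mul_of_nonneg_left h hc₂.le]
  have h5 : ‖v - v₁‖ ≤ c₃ * (1 + |Real.log ρ|) ∧ |b - b₁| ≤ c₃ * (1 + |Real.log ρ|) := by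
    rcases le_total ρ 1 with hρ1 | hρ1
    · obtain ⟨k1, k2⟩ := hsc hw hρ hρ1 hw₁ hwinρ
      rw [one_div, Real.log_inv] at k1 k2
      have := neg_le_abs (Real.log ρ)
      exact ⟨k1.trans (mul_le_mul_of_nonneg_left (by linarith) hc₃.le),
        k2.trans (mul_le_mul_of_nonneg_left (by linarith) hc₃.le)⟩
    · obtain ⟨k1, k2⟩ := hsc hw one_pos hρ1 hwinρ hw₁
      rw [div_one] at k1 k2
      rw [norm_sub_rev, abs_sub_comm]
      have := le_abs_self (Real.log ρ)
      exact ⟨k1.trans (mul_le_mul_of_nonneg_left (by linarith) hc₃.le),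
        k2.trans (mul_le_mul_of_nonneg_left (by linarith) hc₃.le)⟩
  have hlρ : 0 ≤ |Real.log ρ| := abs_nonneg _
  refine ⟨?_, ?_⟩
  · have h := norm_le_insert' v v₁
    nlinarith [mul_nonneg hc₂.le hlρ, mul_nonneg hc₃.le hlR, mul_nonneg hc₂.le hlR, h5.1]
  · have h := abs_le.1 h5.2
    have h' := abs_le.1 h4
    have hm : 1 ≤ (1 + Real.log R) ^ 2 := one_le_pow₀ (by linarith)
    rw [abs_le]
    constructor <;>
      nlinarith [mul_nonneg hc₂.le hlρ, mul_le_mul_of_nonneg_left hm hc₃.le]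

/-- The offsets at a contact of the potential with the barrier. -/
theorem contact_velocity (C G : ℝ) : ∃ c : ℝ, 0 < c ∧ ∀ {w : ℝ → F → ℝ}, Prof C w →
    IsWin C w 0 0 1 0 0 → ∀ a R : ℝ, 0 < a → 1 ≤ R → ∃ s₀ : ℝ, 0 < s₀ ∧ ∀ {s : ℝ}, 0 < s →
      s ≤ s₀ → ∀ {m : ℕ} {t : ℝ} {y : F} {l : Fin m → ℝ} {η : Fin m → F}, IsStencil l η →
        a ≤ spread l η → spread l η ≤ 3 → |t| ≤ 2 * R → ‖y‖ ≤ 2 * R →
        (∀ i, 0 < l i → ∃ q : F, ∀ z, hlP w s t (y + η i + z) ≤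
          hlP w s t (y + η i) + ⟪q, z⟫ + G / spread l η * ‖z‖ ^ 2) →
        ∀ A : Fin m → F,
          (∀ i, hlP (hlP w s) s t (y + η i) =
            hlP w s (t + s) (y + η i + A i) - ‖A i‖ ^ 2 / (2 * s)) →
          ∑ i, l i * ‖A i‖ ^ 2 ≤
            s ^ 2 * (c * (1 + Real.log R + |Real.log (spread l η)|)) ^ 2 := by
  obtain ⟨c₁, hc₁, hvel⟩ := atom_velocity (F := F) C
  obtain ⟨c₂, hc₂, hwb⟩ := window_bound (F := F) C
  refine ⟨2 * (c₁ * (1 + 2 * |G|) + c₂), by positivity, ?_⟩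
  intro w hw hwin a R ha hR
  refine ⟨a / 2, by positivity, ?_⟩
  intro s hs hsa m t y l η hst hlo hhi ht hy htouch A hA
  have hρ : 0 < spread l η := by linarith
  obtain ⟨b, v, hv⟩ := hw.window t y _ hρ
  have h1 := hvel hw hst hs (by linarith) (p := 2 * |G|) (by positivity) hv (fun i hi => by
    obtain ⟨q, hq⟩ := htouch i hi
    refine ⟨q, fun z => (hq z).trans ?_⟩
    rw [show 2 * |G| / 2 = |G| by ring]
    gcongr
    exact le_abs_self G) A hA
  have h2 := (hwb hw hwin hR (by linarith) (by linarith) hρ hv).1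
  set X := 1 + Real.log R + |Real.log (spread l η)| with hX
  have hX1 : 1 ≤ X := by
    have := Real.log_nonneg hR
    have := abs_nonneg (Real.log (spread l η))
    linarith
  have h3 : ∀ i, l i * ‖A i‖ ^ 2 ≤
      2 * (l i * ‖A i - s • v‖ ^ 2) + 2 * (s * ‖v‖) ^ 2 * l i := fun i => by
    have h := norm_le_insert' (A i) (s • v)
    rw [norm_smul, Real.norm_of_nonneg hs.le] at h
    have h' : ‖A i‖ ^ 2 ≤ 2 * ‖A i - s • v‖ ^ 2 + 2 * (s * ‖v‖) ^ 2 :=
      (pow_le_pow_left₀ (norm_nonneg _) h 2).trans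
        (by nlinarith [sq_nonneg (s * ‖v‖ - ‖A i - s • v‖)])
    linarith [mul_le_mul_of_nonneg_left h' (hst.1 i)]
  refine (Finset.sum_le_sum fun i _ => h3 i).trans ?_
  rw [Finset.sum_add_distrib, ← Finset.mul_sum, ← Finset.mul_sum, hst.2.1]
  have h4 : (c₁ * (1 + 2 * |G|) * s) ^ 2 ≤ s ^ 2 * (c₁ * (1 + 2 * |G|) * X) ^ 2 := by
    rw [mul_pow, mul_comm, mul_pow _ X]
    exact mul_le_mul_of_nonneg_left (le_mul_of_one_le_right (sq_nonneg _) (one_le_pow₀ hX1))
      (sq_nonneg s)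
  have h5 : (s * ‖v‖) ^ 2 ≤ s ^ 2 * (c₂ * X) ^ 2 := by
    rw [mul_pow]; gcongr
  have h6 : (c₁ * (1 + 2 * |G|) * X) ^ 2 + (c₂ * X) ^ 2 ≤
      ((c₁ * (1 + 2 * |G|) + c₂) * X) ^ 2 := by
    nlinarith [mul_nonneg (mul_nonneg hc₁.le hc₂.le)
      (mul_nonneg (by positivity : (0 : ℝ) ≤ 1 + 2 * |G|) (sq_nonneg X))]
  have h7 := mul_le_mul_of_nonneg_left h6 (sq_nonneg s)
  have h8 : 0 ≤ s ^ 2 * ((c₁ * (1 + 2 * |G|) + c₂) * X) ^ 2 := by positivity
  linarith

/-- The offset of the backward child moves with the window velocity of the double step. -/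
theorem child_offset (C : ℝ) : ∃ c : ℝ, 0 < c ∧ ∀ {w : ℝ → F → ℝ}, Prof C w →
    ∀ {s b t : ℝ} {y v e : F}, 0 < s → IsWin C w t y (2 * s) b v →
      hlM (hlM w s) s t y = hlM w s (t - s) (y + e) + ‖e‖ ^ 2 / (2 * s) →
      ‖e + s • v‖ ≤ c * s := by
  obtain ⟨c, hc, hb⟩ := hlP_bound (F := F) C
  refine ⟨c, hc, ?_⟩
  intro w hw s b t y v e hs hwin he
  have hmir : mir (hlM w s) = hlP (mir w) s := by
    funext t' y'; simp [mir, hlM]
  have he' : hlP (hlP (mir w) s) s (-t) y =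
      hlP (mir w) s (-t + s) (y + e) - ‖e‖ ^ 2 / (2 * s) := by
    simp only [hlM] at he
    rw [show -(t - s) = -t + s by ring] at he
    rw [← hmir]
    rw [show mir (hlM w s) (-t + s) (y + e) = hlP (mir w) s (-t + s) (y + e) by rw [hmir]]
    change -hlP (mir (hlM w s)) s (-t) y = _ at he
    linarith
  have h2 := offset_half hw.mirror hs he'
  have h3 : hlM w (2 * s) t y = w (t - 2 * s) (y + (2 : ℝ) • e) +
      ‖(2 : ℝ) • e‖ ^ 2 / (2 * (2 * s)) := by
    simp only [hlM, h2, mir]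
    rw [show -(-t + 2 * s) = t - 2 * s by ring]
    ring
  have h := (hb hw (by linarith : 0 < 2 * s) hwin).2.2.2 _ h3
  rw [show (2 : ℝ) • e + (2 * s) • v = (2 : ℝ) • (e + s • v) by module, norm_smul,
    Real.norm_of_nonneg (by norm_num : (0 : ℝ) ≤ 2)] at h
  linarith

/-- The size of the backward offset in a normalised profile. -/
theorem back_velocity (C : ℝ) : ∃ c : ℝ, 0 < c ∧ ∀ {w : ℝ → F → ℝ}, Prof C w →
    IsWin C w 0 0 1 0 0 → ∀ {R s t : ℝ} {y b : F}, 1 ≤ R → |t| ≤ 2 * R → ‖y‖ ≤ 2 * R → 0 < s →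
      s ≤ 1 → hlM (hlM w s) s t y = hlM w s (t - s) (y + b) + ‖b‖ ^ 2 / (2 * s) →
      ‖b‖ ≤ c * s * (1 + Real.log R + |Real.log s|) := by
  obtain ⟨c₁, hc₁, hoff⟩ := child_offset (F := F) C
  obtain ⟨c₂, hc₂, hwb⟩ := window_bound (F := F) C
  refine ⟨c₁ + 2 * c₂, by positivity, ?_⟩
  intro w hw hwin R s t y b hR ht hy hs hs1 hb
  obtain ⟨b', v, hv⟩ := hw.window t y (2 * s) (by linarith)
  have h1 := hoff hw hs hv hb
  have h2 := (hwb hw hwin hR (by linarith) (by linarith) (by linarith) hv).1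
  have h3 : |Real.log (2 * s)| ≤ 1 + |Real.log s| := by
    rw [Real.log_mul (by norm_num) hs.ne']
    refine (abs_add_le _ _).trans (add_le_add ?_ le_rfl)
    rw [abs_of_nonneg (Real.log_nonneg (by norm_num))]
    linarith [Real.log_le_sub_one_of_pos (by norm_num : (0 : ℝ) < 2)]
  have h4 := norm_sub_le (b + s • v) (s • v)
  rw [add_sub_cancel_right, norm_smul, Real.norm_of_nonneg hs.le] at h4
  have hlR : 0 ≤ Real.log R := Real.log_nonneg hR
  have hls : 0 ≤ |Real.log s| := abs_nonneg _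
  have h5 : ‖v‖ ≤ c₂ * (2 * (1 + Real.log R + |Real.log s|)) :=
    h2.trans (mul_le_mul_of_nonneg_left (by linarith) hc₂.le)
  have h6 := mul_le_mul_of_nonneg_left h5 hs.le
  linarith [mul_nonneg (mul_nonneg hc₁.le hs.le) (add_nonneg hlR hls)]

end Vale.Agent.P080.C1
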